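import Crest.Agent.X212.Nm96.Pa

-- ▼ part X212/Nm96/Pb
section

/-!
# Row 212, `p = 1` (helper96), part b: chains round a gap, the steps, window shapes
-/

set_option autoImplicit false
noncomputable section

namespace Crest.Agent.X212.Nm96

open Crest.Agent.X212.Rod53 Crest.Agent.X212.Wd38 Finset Cn

variable {Γ : Nm} {P : Pm Γ} {T : WTh Γ} {F F' : Fm Γ} {w w' : Shp Γ} {n n' : Wt} {x y z b x' y' s t : ℤ}
  {ts ts' : List Tw} {σ ρ : Finset Wl} {v v' vL : ℝ × ℝ} {a e i : Wl} {c : Cn} {d : ℕ} {Q Q' : ℤ} {K K' : ℕ}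
  {g g' : ℕ → ℤ}

/-- a chain of good cells -/
structure Cc (P : Pm Γ) (F : Fm Γ) (n : Wt) (z x y b : ℤ) (vL : ℝ × ℝ) (Q : ℤ) (K : ℕ) (g : ℕ → ℤ) (d : ℕ)
    (c : Cn) : Prop where
  pre : Fm.Pre d c
  cell : ∀ p ∈ c.support, p.1 = n ∧ Gd P F n z x y b vL Q K g p.2
  exc : Exc c x

/-- the walls `ρ` fill the gap -/
def Fi (F : Fm Γ) (n : Wt) (z x y : ℤ) (v v' : ℝ × ℝ) (ρ : Finset Wl) : Prop := ∃ ts, Inn F x y ts ρ ∧
  (∀ a ∈ ρ, a.b.OKn F.w n ∧ a.b.OKn F.w (acts F.w ts n) ∧ (a.b.pin ∨ a.tw = [])) ∧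
  ∀ σ, wn x y σ = ρ.image Wl.b → F.Win z 0 (acts F.w ts n) σ x y v v'

theorem Fi.pos (h : Fi F n z x y v v' ρ) (k : a ∈ ρ) : a.b.lo ≤ a.b.hi ∧ x < a.b.lo ∧ a.b.hi < y :=
  h.choose_spec.1.pos (mem_image_of_mem _ k)

namespace Cc

variable (C : Cc P F n z x y b vL Q K g d c) (H : Fr P F n z x y b)
include C H

theorem tr (f : Wt → Wt) (ls : F'.ls = ∅) (l : F'.w.l = F.w.l) (r : F'.w.r = F.w.r)
    (e : Aq F.w F'.w n (f n) fun j => j ≤ x ∨ y ≤ j) (k : F.fz ⊆ F'.fz)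
    (k' : ∀ a ∈ F'.fz, a ∈ F.fz ∨ (x ≤ a.lo ∧ a.hi ≤ y)) : Cc P F' (f n) z x y b vL Q K g d (c.mp f id ∅) :=
  ⟨C.pre.mp f, fun _ hq => by
    obtain ⟨p, hp, rfl⟩ := mem_mp hq
    simpa only [image_id, union_empty] using ⟨congrArg f (C.cell p hp).1, (C.cell p hp).2.tr H ls l r e k k'⟩,
    C.exc.mp (fun p hp => (C.cell p hp).1) f⟩

theorem frz {fz : Finset Bs} (k : F.fz ⊆ fz) (k' : ∀ a ∈ fz, a ∈ F.fz ∨ (x ≤ a.lo ∧ a.hi ≤ y)) :
    Cc P { F with fz := fz } n z x y b vL Q K g d c :=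
  mp_id c ▸ C.tr H (F' := { F with fz := fz }) id H.ls rfl rfl (fun _ _ => ⟨rfl, rfl, rfl⟩) k k'

theorem notMem (h : a.b.lo ≤ a.b.hi ∧ x < a.b.lo ∧ a.b.hi < y) : ∀ p ∈ c.support, a ∉ p.2 := fun p hp k => by
  have := (C.cell p hp).2.pos H.yb (mem_image_of_mem Wl.b k); omega

theorem gc (h : Fi F n z x y vL (vQ Q) ρ) : ∀ p ∈ c.support, F.GC P p.1 (p.2 ∪ ρ) := fun p hp => by
  obtain ⟨ts, I, o, W⟩ := h
  obtain ⟨_, -, -, -, -, k⟩ := (C.cell p hp).2.gc H I o W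
  exact (C.cell p hp).1 ▸ k

theorem cl (h : Fi F n z x y vL (vQ Q) ∅) : F.Cl P d c :=
  C.pre.cl H.ls fun p hp => by simpa using C.gc H h p hp

theorem jo (h : Fi F n z x y vL (vQ Q) {a}) (k : a.b.pin) : F.Jo P c a :=
  ⟨k, fun p hp => ⟨C.notMem H (h.pos (mem_singleton_self a)) p hp, by
    rw [insert_eq, union_comm]; exact C.gc H h p hp⟩⟩

theorem split (X : Ax0 P T) (ha : F.Jo P c a) (hi : F.Jo P c i) (he : F.Jo P c e) :
    T.Z F (d + 1) (J a e c) = T.Z F (d + 1) (J a i c) + T.Z F (d + 1) (J i e c) := by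
  rw [← J_add a i e, X.add _ _ _ _ (C.pre.clJ H.ls ha hi) (C.pre.clJ H.ls hi he)]

theorem two (X : Ax0 P T) (ha : F.Jo P c a) (he : F.Jo P c e) (ne : a ≠ e) (h : Fi F n z x y vL (vQ Q) {a, e}) :
    T.Z F (d + 1) (J a e c) = 0 := by
  have na := fun p hp => (ha.2 p hp).1
  have nb := fun p hp => (he.2 p hp).1
  have k := bd_jj C.pre.bd ne na nb
  have key : ∀ q ∈ (jn a (jn e c)).support, ∃ p ∈ c.support, q = (p.1, insert a (insert e p.2)) :=
    fun q hq => by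
      obtain ⟨p', hp', rfl⟩ := mem_jn hq
      obtain ⟨p, hp, rfl⟩ := mem_jn hp'
      exact ⟨p, hp, rfl⟩
  rw [← k]
  refine X.stk F _ _ H.ok ⟨fun q hq => ?_, by simp [H.ls]⟩ (fun q hq => ?_) (k ▸ C.pre.clJ H.ls ha he) <;>
    obtain ⟨p, hp, rfl⟩ := key q hq
  · refine ⟨?_, fun x hx => .inl ?_⟩
    · rw [card_insert_of_notMem (by simp [ne, na p hp]), card_insert_of_notMem (nb p hp), (C.pre.mem p hp).1]
    · rcases mem_insert.1 hx with rfl | hx
      · exact ha.1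
      · exact (mem_insert.1 hx).elim (· ▸ he.1) ((C.pre.mem p hp).2 x)
  · rw [show insert a (insert e p.2) = p.2 ∪ {a, e} by ext; simp]
    exact C.gc H h p hp

/-- a turn -/
theorem rf (X : Ax0 P T) {f : Wt → Wt} {a e : Bs} (C' : Cc P { F with w := w } (f n) z x y b vL Q K g d (c.mp f id ∅))
    (H' : Fr P { F with w := w } (f n) z x y b) (sur : w.Sur F.w x' y') (h1 : x < x') (h2 : y' < y)
    (rod : ∀ j, x' < j → j ≤ y' → F.w.s j = .rod (F.w.s x').r) (chg : Chg ∅ 0 x' y' f)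
    (rs : Fm.RS { F with w := w } (f n) x' y' a e) (f0 : Fi F n z x y vL (vQ Q) ∅)
    (f1 : Fi F n z x y vL (vQ Q) {↑(Bs.rA x' y')})
    (f2 : Fi { F with w := w } (f n) z x y vL (vQ Q) {↑(Bs.rA x' y'), ↑a})
    (f3 : Fi { F with w := w } (f n) z x y vL (vQ Q) {↑(Bs.rA x' y'), ↑e})
    (ha : Fm.Jo P { F with w := w } (c.mp f id ∅) a) (he : Fm.Jo P { F with w := w } (c.mp f id ∅) e) :
    T.Z { F with w := w } (d + 1) (J a e (c.mp f id ∅)) = T.Z F d c := by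
  have k : c.mp f id {↑a} + c.mp f id {↑e} = J a e (c.mp f id ∅) := by rw [mp_one, mp_one, Cn.J]
  have m := fun p hp => mem_mp' (g := f) (fun p hp => (C.cell p hp).1) (p := p) hp
  have lt := sur.rg.lt
  rw [← k]
  refine X.rf F _ _ _ a e _ d c sur rfl (by simp [H.ls]) rod (H.ls ▸ chg) (fun i hi => ?_) (C.cl H f0)
    (fun p hp => ⟨by rw [insert_eq, union_comm]; exact C.gc H f1 p hp, (C.cell p hp).1 ▸ rs,
      C'.gc H' f2 _ (m p hp), C'.gc H' f3 _ (m p hp)⟩) (k ▸ C'.pre.clJ H.ls ha he)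
  obtain ⟨p, hp, k⟩ := mem_walls.1 hi
  have := (C.cell p hp).2.pos H.yb (mem_image_of_mem Wl.b k)
  refine ⟨⟨by omega, by omega, fun τ q => ?_⟩, by simp only [Bs.Far, Bs.lo, Bs.hi] at *; omega⟩
  rcases ((C.cell p hp).2.ok i k).2.2 with p | p | p
  · simp [p.1] at q
  · have := p.2.2.2 τ q; omega
  · simp [p.1] at q

/-- a junction and its inverse -/
theorem can (X : Ax0 P T) {f : Wt → Wt} {J J' : Γ.J} (h : F.w.Can w J J' x' y') (iv : P.iv J J')
    (p : (Γ.src J).2.2 ≠ 0) (chg : Chg ∅ 1 x' y' f) (h1 : x + 1 < x') (h2 : y' + 1 < y)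
    (fz : ∀ a ∈ F.fz, a.lo ≤ x ∨ y ≤ a.lo) (f0 : Fi F n z x y vL (vQ Q) ∅)
    (cl : Fm.Cl P { F with w := w } d (c.mp f id ∅)) : T.Z { F with w := w } d (c.mp f id ∅) = T.Z F d c := by
  refine (X.can F w J J' x' y' f d c h iv p (H.ls ▸ chg) (fun i hi => ?_) (fun a k => ?_) (C.cl H f0) cl).symm
  · obtain ⟨p, hp, k⟩ := mem_walls.1 hi
    have := H.yb
    rcases ((C.cell p hp).2.ok i k).2.2 with p | p | p
    · exact ⟨_, _, ⟨le_rfl, le_rfl, by simp [p.1]⟩, .inl (by omega)⟩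
    · exact ⟨y, b, ⟨p.1.le, p.2.1.le, p.2.2.2⟩, .inr (by omega)⟩
    · exact ⟨_, _, ⟨le_rfl, le_rfl, by simp [p.1]⟩, .inr (by omega)⟩
  · rw [H.ls, union_empty] at k
    obtain ⟨-, u, rfl⟩ := H.ok.fz a k
    have := fz _ k
    simp only [Bs.lo, Bs.hi] at *; omega

theorem exc' (h1 : x ≤ x') (h2 : x' ≤ y) : Exc c x' := C.exc.congr fun p hp a k => by
  have := (C.cell p hp).2.pos H.yb (mem_image_of_mem Wl.b k); omega

theorem left0 (h1 : x ≤ x') (h2 : x' ≤ y) (W : ∀ σ', wn x x' σ' = ∅ → F.Win z 0 n σ' x x' vL v') :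
    Cc P F n z x' y b v' Q K g d c :=
  ⟨C.pre, fun p hp => ⟨(C.cell p hp).1, by
    simpa using (C.cell p hp).2.left H inn_empty h1 h2 (by simp) (by simpa using W)⟩, C.exc' H h1 h2⟩

theorem right0 (h1 : x ≤ y') (h2 : y' ≤ y) (W : ∀ σ', wn y' y σ' = ∅ → F.Win z 0 n σ' y' y (vQ Q') (vQ Q))
    (q : 4 * S F.w n al y' y = Q' - Q) : Cc P F n z x y' b vL Q' K g d c :=
  ⟨C.pre, fun p hp => ⟨(C.cell p hp).1, by
    simpa using (C.cell p hp).2.right (K' := K) (g' := g) H inn_empty h1 h2 (by simp) (by simp) (by simpa [acts] using W)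
      (by simpa [acts] using q) (by simp) (fun _ _ => rfl) (by simp)⟩, C.exc⟩

theorem ofJ {x' y' : ℤ} {v' : ℝ × ℝ} (ne : a ≠ e)
    (h : ∀ i ∈ ({a, e} : Finset Wl), i.b.pin ∧ (i.b.lo ≤ i.b.hi ∧ x < i.b.lo ∧ i.b.hi < y) ∧
      ∀ σ, Gd P F n z x y b vL Q K g σ → Gd P F n z x' y' b v' Q' K' g' (σ ∪ {i})) (h1 : x ≤ x') (h2 : x' ≤ y)
    (k : (∀ i ∈ ({a, e} : Finset Wl), i.b.hi < x') ∨ ∀ i ∈ ({a, e} : Finset Wl), x' < i.b.lo) :
    Cc P F n z x' y' b v' Q' K' g' (d + 1) (J a e c) := by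
  have ha := h a (by simp)
  have he := h e (by simp)
  refine ⟨C.pre.J ha.1 he.1 (C.notMem H ha.2.1) (C.notMem H he.2.1), fun _ hq => ?_,
    (C.exc' H h1 h2).J ne (C.notMem H ha.2.1) (C.notMem H he.2.1) (k.imp (fun k i q => ?_) fun k i q => ?_)⟩
  · obtain ⟨p, hp, rfl | rfl⟩ := mem_J hq <;> refine ⟨(C.cell p hp).1, ?_⟩ <;> rw [insert_eq, union_comm]
    exacts [ha.2.2 _ (C.cell p hp).2, he.2.2 _ (C.cell p hp).2]
  all_goals have := k i q; have := h i q; omega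

end Cc

theorem Fr.tr (H : Fr P F n z x y b) (ok : w.OK) (nok : n'.OK w P.Λ) (p1 : P1 w) (l : w.l = F.w.l)
    (r : w.r = F.w.r) (e : ∀ j, j ≤ x ∨ y ≤ j → w.s j = F.w.s j) (mL : n'.mL = n.mL) (mR : n'.mR = n.mR) :
    Fr P { F with w := w } n' z x y b :=
  ⟨⟨ok, fun a k => by
      obtain ⟨o, u, rfl⟩ := H.ok.fz a k
      exact ⟨⟨l ▸ o.1, r ▸ o.2⟩, u, rfl⟩, by simp [H.ls], by simp [H.ls], by simp [H.ls]⟩, H.ls,
    ⟨nok, mL.trans H.lok.mL, mR.trans H.lok.mR, by simp [H.ls]⟩, p1, l ▸ H.lo, H.xy, H.yb, H.bz,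
    ⟨H.cz.1, e z (.inr (H.yb.trans H.bz)) ▸ H.cz.2⟩⟩

theorem Fr.frz (H : Fr P F n z x y b) {fz : Finset Bs} (k : F.fz ⊆ fz)
    (k' : ∀ a ∈ fz, a ∈ F.fz ∨ ∃ u, a = .yS u ∧ x ≤ u ∧ u ≤ y) : Fr P { F with fz := fz } n z x y b :=
  have := H.lo; have := H.yb; have := H.bz; have := cut_lt H.ok H.cz
  ⟨⟨H.ok.w, fun a q => (k' a q).elim (H.ok.fz a) fun ⟨u, e, _⟩ => ⟨e ▸ ⟨by simp only; omega, by simp only; omega⟩, u, e⟩,
    H.ok.ls, by simp [H.ls], H.ok.ll⟩, H.ls, ⟨H.lok.ok, H.lok.mL, H.lok.mR, H.lok.ls⟩, H.p1, H.lo, H.xy, H.yb, H.bz,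
    ⟨k H.cz.1, H.cz.2⟩⟩

theorem Fr.mono (H : Fr P F n z x y b) (h1 : x ≤ x') (h2 : x' < y') (h3 : y' ≤ y) : Fr P F n z x' y' b :=
  ⟨H.ok, H.ls, H.lok, H.p1, H.lo.trans_le h1, h2, h3.trans H.yb, H.bz, H.cz⟩

theorem Fr.cw (H : Fr P F n z x y b) (h : F.Cut s) (h' : F.Cut t) (lt : s < t) (k : t ≤ y) : Cw F s t z :=
  ⟨H.ls, H.ok.w, H.p1, lt, .inr h, .inl ⟨h', k.trans (H.yb.trans H.bz)⟩⟩

/-! ### definite pieces -/

/-- a lower bound for the abelian number of a definite vertex -/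
def psi (u v : Z2) (x y : ℤ) : ℝ := om u v x y + if uu u v x y = 1 ∨ uu u v x y = -3 then 3 / 2 else 0

theorem vn_al : Vn al := fun _ _ _ _ h => by simp [al, lp, lq, lb, lg, nn, h]

theorem vn_om : Vn om := fun _ _ _ _ h => by simp [om, lp, lq, lb, lg, nn, h]

theorem vn_psi : Vn psi := fun u v x y h => by rw [psi, vn_om u v x y h, vn_uu u v x y h]; norm_num

/-- only definite vertices in `(s, t]` -/
def Df (w : Shp Γ) (s t : ℤ) : Prop := ∀ c, s < c → c ≤ t → dt (w.lf c) (w.rt c) = 0 ∨ nn (w.lf c) (w.rt c) < 0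

theorem Df.mono (h : Df w s t) (h1 : s ≤ x) (h2 : y ≤ t) : Df w x y := fun c p q => h c (by omega) (by omega)

theorem Df.trans (h : Df w s t) (h' : Df w t x) : Df w s x := fun c p q =>
  if k : c ≤ t then h c p k else h' c (not_le.1 k) q

theorem lq_neg {u v : Z2} (hu : |u.2| ≤ 1) (hv : |v.2| ≤ 1) (h : nn u v < 0) (x y : ℤ) : lq u v x y ≤ 0 := by
  obtain ⟨a, p⟩ := u
  obtain ⟨b, q⟩ := v
  simp only [nn, abs_le] at *
  have A : ∀ {D X : ℤ} {Y : ℝ}, 0 < D → Y = -(D : ℝ) * (X : ℝ) ^ 2 → Y ≤ 0 := fun {D X Y} h e => by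
    have : (0 : ℝ) < D := by exact_mod_cast h
    rw [e]; nlinarith [sq_nonneg (X : ℝ)]
  rcases (show p = 1 ∨ p = 0 ∨ p = -1 by omega) with rfl | rfl | rfl <;>
    rcases (show q = 1 ∨ q = 0 ∨ q = -1 by omega) with rfl | rfl | rfl <;> simp at h
  · exact A (X := x - y) h (by simp only [lq, lb, rho]; norm_num; left; ring)
  · exact A (D := -dt (a, 1) (b, -1)) (X := x + y) (by omega) (by simp [lq, lb, rho]; ring)
  · exact A (D := -dt (a, -1) (b, 1)) (X := x + y) (by omega) (by simp [lq, lb, rho]; ring)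
  · exact A (X := x - y) h (by simp only [lq, lb, rho]; norm_num; left; ring)

theorem psi_le (ok : w.OK) (p : P1 w) (tp : Tp w n n' s t) (h1 : s ≤ x) (h2 : y ≤ t) (df : Df w x y) :
    S w n psi x y ≤ -3 / 2 * S w n' lq x y + S w n om x y := by
  simp only [S, mul_sum, ← sum_add_distrib]
  refine sum_le_sum fun c hc => ?_
  obtain ⟨c1, c2, c3⟩ := mem_filter.1 hc
  rw [mem_Ioc] at c1
  have k : lq (w.lf c) (w.rt c) (n'.nr (c - 1)) (n'.nl c) ≤ 0 := (df c c2 c3).elim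
    (fun e => by simp [lq, lb, e]) fun e => lq_neg (p _).2 (p _).1 e _ _
  obtain ⟨j, hj⟩ := site_cong (u := w.lf c) (v := w.rt c) (p _).2 (p _).1 ((ok.st c c1.1 c1.2).2.imp_left (by
      rintro (e | e) <;> rw [Shp.lf, e]
      exacts [Wd38.dt_self _, dt_neg_self _]))
    (tp.r _ (by omega) (by omega) (by omega) (by omega)) (tp.l c (by omega) (by omega) c1.1 c1.2)
  simp only [vx, psi]
  split_ifs with i
  · rcases i with i | i <;> rw [i] at hj
    · have : 4 * j ≤ 1 := by exact_mod_cast (by linarith : (4 * j : ℝ) ≤ 1)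
      have : (j : ℝ) ≤ 0 := by exact_mod_cast (by omega : j ≤ 0)
      linarith
    · have : 4 * j ≤ -3 := by exact_mod_cast (by linarith : (4 * j : ℝ) ≤ -3)
      have : (j : ℝ) ≤ -1 := by exact_mod_cast (by omega : j ≤ -1)
      linarith
  · linarith

section pc
variable {B σ : Finset Bs} {η : Bs → Bool} {ch : Bs → Bool → ℤ}

/-- a piece that is an interval of definite vertices -/
theorem pc_iv (H : Cw F s t z) (tz : t ≤ z) (A : Finset Bs)
    (hI : ∀ c, s < c → c ≤ t → (InV B η c ↔ x < c ∧ c ≤ y))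
    (hA : ∀ b, b ∈ A ↔ b ∈ B ∧ s ≤ b.lo ∧ b.lo < t ∧ Adj B η b) (na : ∀ a ∈ A, ¬a.arc) (h0 : s ≤ x) (h2 : y ≤ t)
    (df : Df F.w x y) {m e q : ℝ} (hm : m ≤ asum (σ \ B) B η s t fun _ => 1)
    (he : ∀ ε : ℝ, ∑ a ∈ A, ((if a.side (a.lo + 1) = η a then ε else 0) - ch a (η a) : ℝ) = ε * e - q)
    (k1 : dp B η s t v.1 v'.1 ≤ S F.w n al x y + m / 4 + (13 / 4 * e - q))
    (k2 : dp B η s t v.2 v'.2 ≤ S F.w n psi x y + m + (e - q)) : F.Pc z 0 n σ B ch s t v v' η := by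
  have e1 : ∀ φ n, ssum F.w B η s t φ n = S F.w n φ x y := fun φ n => by
    rw [ssum_eq, asum_of A hA, sum_eq_zero (s := A) fun a k => if_neg (na a k), add_zero]
    exact sum_congr (filter_congr fun c _ => ⟨fun q => (hI c (by omega) (by omega)).1 q.2.2,
      fun q => ⟨by omega, by omega, (hI c (by omega) (by omega)).2 q⟩⟩) fun _ _ => rfl
  have m4 : asum (σ \ B) B η s t (fun _ => 1 / 4) = asum (σ \ B) B η s t (fun _ => 1) / 4 := by
    simp only [asum, sum_div]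
  have l0 : ∀ f, asum F.ls B η s t f = 0 := fun f => by simp [asum, H.ls]
  refine ⟨?_, .inr fun n' tp _ => ?_⟩
  · rw [Fm.Ev, e1, l0, m4, asum_of A hA, sub_zero, he]; linarith
  · rw [Fm.Ev, ee, if_neg fun i => i.1.not_ge tz, e1, e1, l0, asum_of A hA, sub_zero, he]
    linarith [psi_le H.ok H.p1 tp h0 h2 df]

variable (H : Cw F s t z) (tz : t ≤ z) {c : ℤ}
include H tz

theorem pd_0 (df : Df F.w s t) {m : ℝ} (hm : m ≤ #(wn s t σ)) (k1 : v'.1 - v.1 ≤ S F.w n al s t + m / 4)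
    (k2 : v'.2 - v.2 ≤ S F.w n psi s t + m) : F.Pc z 0 n σ ∅ ch s t v v' η :=
  pc_iv (e := 0) (q := 0) H tz ∅ (fun c a b => by simp [InV, a, b]) (by simp) (by simp) le_rfl le_rfl df
    (by simpa [asum, wn, Adj, InV] using hm) (by simp) (by simpa [dp, InV] using k1) (by simpa [dp, InV] using k2)

theorem pd_l (h : s < x) (h' : x < t) (df : Df F.w s x) (hη : η (.sS x) = false)
    (k1 : -v.1 ≤ S F.w n al s x + c) (k2 : -v.2 ≤ S F.w n psi s x + c) :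
    F.Pc z 0 n σ {.sS x} (cf c) s t v v' η :=
  pc_iv (m := 0) (e := 0) (q := -c) H tz {.sS x} (fun c a b => by simp [InV, Bs.side, hη, a])
    (by simp +contextual [Adj, InV, Bs.lo, h.le, h']) (by simp [Bs.arc]) le_rfl h'.le df asum_nn
    (fun ε => by rw [sum_singleton]; simp [Bs.side, Bs.lo, Bs.arc, cf, hη])
    (by simpa [dp, InV, Bs.side, hη, h', h] using k1) (by simpa [dp, InV, Bs.side, hη, h', h] using k2)

theorem pd_r (h : s < x) (h' : x < t) (df : Df F.w x t) (hη : η (.sS x) = true)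
    (k1 : v'.1 ≤ S F.w n al x t + (13 / 4 - c)) (k2 : v'.2 ≤ S F.w n psi x t + (1 - c)) :
    F.Pc z 0 n σ {.sS x} (cf c) s t v v' η :=
  pc_iv (m := 0) (e := 1) (q := c) H tz {.sS x} (fun c a b => by simp [InV, Bs.side, hη, b])
    (by simp +contextual [Adj, InV, Bs.lo, h.le, h']) (by simp [Bs.arc]) h.le le_rfl df asum_nn
    (fun ε => by rw [sum_singleton]; simp [Bs.side, Bs.lo, Bs.arc, cf, hη])
    (by simpa [dp, InV, Bs.side, hη, h', h.not_ge] using k1) (by simpa [dp, InV, Bs.side, hη, h', h.not_ge] using k2)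

/-- right of a slice, an arc left of it -/
theorem pd_ar (o : x < y) (h : s < x) (h1 : y < x') (h' : x' < t) (df : Df F.w x' t) (hη : η (.sA x y) = true)
    (hη' : η (.sS x') = true) (k1 : v'.1 ≤ S F.w n al x' t + (13 / 4 - c))
    (k2 : v'.2 ≤ S F.w n psi x' t + (1 - c)) : F.Pc z 0 n σ {.sA x y, .sS x'} (cf c) s t v v' η :=
  have ne : Bs.sA x y ≠ .sS x' := nofun
  pc_iv (m := 0) (e := 1) (q := c) H tz {.sS x'} (fun c a b => by simp [InV, Bs.side, hη, hη', b]; omega)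
    (fun b => by
      rw [adj_two ne]
      simp [Bs.lo, Bs.side, hη, hη', h', show s ≤ x' by omega, show y ≤ x' by omega, show ¬x' ≤ x by omega])
    (by simp [Bs.arc]) (by omega) le_rfl df asum_nn
    (fun ε => by rw [sum_singleton]; simp [Bs.side, Bs.lo, Bs.arc, cf, hη'])
    (by simpa [dp, InV, Bs.side, hη, hη', h', h, h1.trans h', show ¬x' ≤ s by omega] using k1)
    (by simpa [dp, InV, Bs.side, hη, hη', h', h, h1.trans h', show ¬x' ≤ s by omega] using k2)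

omit tz

/-- left of a slice, outside an arc left of it -/
theorem pc_al (o : (Bs.sA x y).OK F.w) (o' : (Bs.sS x').OK F.w) (h : s < x) (h1 : y < x') (h' : x' < t)
    (hη : η (.sA x y) = true) (hη' : η (.sS x') = false)
    (k : Nq F n {.sA x y, .sS x'} η s t z (-v.1) (-v.2) (S F.w n lp s x + S F.w n lp y x' + vv F.w lp n (.sA x y))
      (S F.w n uu s x + S F.w n uu y x' + vv F.w uu n (.sA x y)) 0 0 (-3 - c)) :
    F.Pc z 0 n σ {.sA x y, .sS x'} (cf c) s t v v' η :=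
  have xy := o.1.lt
  have ne : Bs.sA x y ≠ .sS x' := nofun
  pc_ne (x := s) (y := x) (x' := y) (y' := x') H (by simp [Bs.pin, Bs.hi, o, o', h']; omega) {.sA x y, .sS x'}
    (fun c a b => by simp [InV, Bs.side, hη, hη', a]; omega)
    (fun b => by
      rw [adj_two ne]
      simp [Bs.lo, Bs.side, hη, hη', h.le, h', show s ≤ x' by omega, show x < t by omega,
        show x < x' by omega, show x ≤ x' by omega, show y ≤ x' by omega])
    le_rfl xy.le h'.le h.le h1.le (by rw [sum_pair ne]; simp [sv, Bs.arc, hη])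
    (by rw [sum_pair ne]; simp [sv, Bs.arc, hη]) asum_nn
    (by simp [dp, InV, Bs.side, hη, hη', h', h, show s < x' by omega])
    (by simp [dp, InV, Bs.side, hη, hη', h', h, show s < x' by omega])
    (fun ε => by rw [sum_pair ne]; simp [Bs.side, Bs.lo, Bs.arc, cf, hη, hη', xy]; ring) k

/-- outside two nested arcs -/
theorem pc_oo (o : (Bs.sA x y).OK F.w) (o' : (Bs.sA x' y').OK F.w) (h : s < x') (h1 : x' < x) (h2 : y < y')
    (h' : y' < t) (hη : η (.sA x y) = true) (hη' : η (.sA x' y') = true)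
    (k : Nq F n {.sA x y, .sA x' y'} η s t z (v'.1 - v.1) (v'.2 - v.2)
      (S F.w n lp s x' + S F.w n lp y' t + vv F.w lp n (.sA x' y'))
      (S F.w n uu s x' + S F.w n uu y' t + vv F.w uu n (.sA x' y')) 0 0 (-3)) :
    F.Pc z 0 n σ {.sA x y, .sA x' y'} (cf c) s t v v' η :=
  have xy := o.1.lt
  have ne : Bs.sA x y ≠ .sA x' y' := fun e => by cases e; omega
  pc_ne (x := s) (y := x') (x' := y') (y' := t) H (by simp [Bs.pin, Bs.hi, o, o', h']; omega) {.sA x' y'}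
    (fun c a b => by simp [InV, Bs.side, hη, hη', a, b]; omega)
    (fun b => by
      rw [adj_two ne]
      simp [Bs.lo, Bs.side, hη, hη', h.le, h1, h1.le, show x < y' by omega, show x' < t by omega])
    le_rfl (by omega) le_rfl h.le h'.le (by simp [sv, Bs.arc, hη']) (by simp [sv, Bs.arc, hη']) asum_nn
    (by simp [dp, InV, Bs.side, hη, hη', h', h, show y < t by omega, show s < x by omega])
    (by simp [dp, InV, Bs.side, hη, hη', h', h, show y < t by omega, show s < x by omega])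
    (fun ε => by rw [sum_singleton]; simp [Bs.side, Bs.lo, Bs.arc, cf, hη', show x' < y' by omega]) k

end pc

/-- all pieces of the broken walls `B` -/
def Wp (F : Fm Γ) (z : ℤ) (n : Wt) (s t : ℤ) (v v' : ℝ × ℝ) (B : Finset Bs) : Prop :=
  ∃ c, |c| ≤ 1 ∧ ∀ σ η, F.Pc z 0 n σ B (cf c) s t v v' η

theorem win_two {a e : Bs} {σ : Finset Bs} (ls : F.ls = ∅) (h : wn s t σ ⊆ {a, e})
    (h0 : ∀ η, F.Pc z 0 n σ ∅ (cf 0) s t v v' η) (h1 : a ∈ wn s t σ → a.pin → Wp F z n s t v v' {a})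
    (h2 : e ∈ wn s t σ → e.pin → Wp F z n s t v v' {e})
    (h3 : a ∈ wn s t σ → e ∈ wn s t σ → a ≠ e → a.pin → e.pin → Wp F z n s t v v' {a, e}) :
    F.Win z 0 n σ s t v v' := win_of ls fun A hA k => by
  have g : Wp F z n s t v v' A → ∃ c, |c| ≤ 1 ∧ ∀ η, F.Pc z 0 n σ A (cf c) s t v v' η :=
    fun ⟨c, p, q⟩ => ⟨c, p, q σ⟩
  have hA' := hA.trans h
  have one : ∀ {a e : Bs}, A ⊆ {a, e} → a ∈ A → (e ∉ A ∨ a = e) → A = {a} := fun p i j =>
    eq_singleton_iff_unique_mem.2 ⟨i, fun x q => (mem_insert.1 (p q)).elim id fun r => by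
      rw [mem_singleton] at r
      exact j.elim (fun j => (j (r ▸ q)).elim) fun j => r.trans j.symm⟩
  by_cases i : a ∈ A <;> by_cases j : e ∈ A
  · by_cases ne : a = e
    · exact g (one hA' i (.inr ne) ▸ h1 (hA i) (k a i))
    · exact g (hA'.antisymm (by simp [insert_subset_iff, i, j]) ▸ h3 (hA i) (hA j) ne (k a i) (k e j))
  · exact g (one hA' i (.inl j) ▸ h1 (hA i) (k a i))
  · exact g (one (pair_comm a e ▸ hA') j (.inl i) ▸ h2 (hA j) (k e j))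
  · rw [show A = ∅ from eq_empty_of_forall_notMem fun x q => (mem_insert.1 (hA' q)).elim (fun r => i (r ▸ q))
      fun r => j (mem_singleton.1 r ▸ q)]
    exact ⟨0, by simp, h0⟩

end Crest.Agent.X212.Nm96
end
end

-- ▼ part X212/Nm96/Pc
section

/-!
# Row 212, `p = 1` (helper96), part c: turns without change of sign, their numbers, windows of a turn
-/

set_option autoImplicit false
noncomputable section

namespace Crest.Agent.X212.Nm96

open Crest.Agent.X212.Rod53 Crest.Agent.X212.Wd38 Finset Cn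

variable {Γ : Nm} {w : Shp Γ} {n : Wt} {κ : Γ.ι} {u : ℕ → ℤ} {V : ℕ → Z2} {m : ℕ → ℤ} {N : ℕ} {Λ : NmL Γ}
  {x y x' y' s t z : ℤ}

/-- the word with the rods `1, …, N - 1` -/
def pw (w : Shp Γ) (κ : Γ.ι) (u : ℕ → ℤ) (V : ℕ → Z2) (N : ℕ) : Shp Γ :=
  ⟨w.l, w.r, fun j => if u 1 ≤ j ∧ j < u N then .rod (κ, V (ix u j)) else w.s j⟩

/-- its line -/
def pn (u m : ℕ → ℤ) (N : ℕ) (n : Wt) : Wt :=
  { n with
    nl := fun j => if u 1 ≤ j ∧ j < u N then m (ix u j) else n.nl j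
    nr := fun j => if u 1 ≤ j ∧ j < u N then m (ix u j) else n.nr j }

theorem pw_ag (n : Wt) : Aq w (pw w κ u V N) n (pn u m N n) fun j => j < u 1 ∨ u N ≤ j := fun j h => by
  have : ¬(u 1 ≤ j ∧ j < u N) := by omega
  simp only [pw, pn, if_neg this, and_self]

theorem pn_chg (h : x < u 1) (h' : u N ≤ y) : Chg ∅ 0 x y (pn u m N) :=
  ⟨fun n j => ⟨fun h => if_neg (by omega), fun h => if_neg (by omega)⟩, by simp⟩

theorem p1_pw (h : P1 w) (k : ∀ i, |(V i).2| ≤ 1) : P1 (pw w κ u V N) := fun j => by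
  simp only [pw]; split_ifs
  exacts [⟨k _, k _⟩, h j]

/-- the data of a turn on a constant rod -/
structure Tq (w : Shp Γ) (n : Wt) (κ : Γ.ι) (u : ℕ → ℤ) (V : ℕ → Z2) (m : ℕ → ℤ) (N : ℕ) : Prop where
  mono : StrictMono u
  lo : w.l < u 0
  hi : u (N + 1) ≤ w.r
  pos : 1 ≤ N
  rd : Rd w n κ (V 0) (m 0) (u 0) (u (N + 1) - 1)
  uni : ∀ k < N, Uni (V k) (V (k + 1))
  vN : V N = V 0
  mN : m N = m 0

namespace Tq

variable (h : Tq w n κ u V m N)
include h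

theorem pt : Pt (pw w κ u V N) (pn u m N n) κ u V m N := by
  refine ⟨h.mono, h.lo, h.hi, fun k hk j a b => ?_⟩
  have e := ix_eq h.mono a (show j < u (k + 1) by omega)
  have := h.mono.monotone k.zero_le
  have := h.mono.monotone (Nat.add_le_add_right hk 1)
  by_cases q : u 1 ≤ j ∧ j < u N
  · simp only [pw, pn, if_pos q, e, and_self]
  · have r := (h.rd.mono (a' := j) (b' := j) (by omega) (by omega)).ag (pw_ag (κ := κ) (u := u) (V := V) (m := m)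
      (N := N) n) (fun i a b => by omega) j le_rfl le_rfl
    rcases Nat.eq_zero_or_pos k with rfl | p
    · exact r
    · have := h.mono.monotone (show 1 ≤ k from p)
      obtain rfl : k = N := hk.antisymm (Nat.lt_succ_iff.1 (h.mono.lt_iff_lt.1 (show u N < u (k + 1) by omega)))
      rw [h.vN, h.mN]; exact r

theorem ok (a : w.OK) (b : n.OK w Λ) : (pw w κ u V N).OK ∧ (pn u m N n).OK (pw w κ u V N) Λ := by
  have p := h.pt
  have pr : ∀ k ≤ N, Pr (V k) := fun k hk => by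
    rcases k with _ | k
    exacts [(uni_pr (h.uni 0 h.pos)).1, (uni_pr (h.uni k hk)).2]
  have g0 : u 0 < u 1 := p.lt 0
  have g1 := p.lt N
  have := h.lo
  have := h.hi
  refine patch (x := u 1 - 1) (y := u N) a b rfl rfl (by omega) (by omega) ((pw_ag n).mono fun j q => by omega)
    (fun j c d => ?_) fun j c d => ?_
  · obtain ⟨q, e⟩ := p.rod (j := j) (by omega) (by omega)
    have i1 := ix_le h.mono (show u 0 ≤ j by omega)
    have i2 := lt_ix h.mono j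
    rw [Sc, e, p.nl q i1 i2, p.nr q i1 i2]
    exact ⟨⟨pr _ q, pr _ q⟩, fun _ _ => rfl, fun _ => nofun⟩
  · obtain ⟨q, e⟩ := p.rod (j := j - 1) (by omega) (by omega)
    have i1 := ix_le h.mono (show u 0 ≤ j - 1 by omega)
    have i2 := lt_ix h.mono (j - 1)
    generalize ix u (j - 1) = k at *
    have e1 := congrArg Sl.r e
    rcases (show j < u (k + 1) ∨ j = u (k + 1) by omega) with c' | rfl
    · exact vc_of e1 (congrArg Sl.l (p.s q (by omega) c')) (p.nr q i1 i2) (p.nl q (by omega) c') (pr k q) rfl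
        (.inl ⟨rfl, rfl⟩)
    · have q' : k + 1 ≤ N := h.mono.le_iff_le.1 d
      exact vc_of e1 (congrArg Sl.l (p.s q' le_rfl (p.lt _))) (p.nr q i1 i2) (p.nl q' le_rfl (p.lt _))
        (pr k q) rfl (.inr (.inr (h.uni k q')))

theorem cls {a : ℕ → ℤ} (a0 : a 0 = 0) (aN : a N = 0) : Tq w Wt.o κ u V a N :=
  ⟨h.mono, h.lo, h.hi, h.pos, fun j x y => ⟨(h.rd j x y).1, a0.symm, a0.symm⟩, h.uni, h.vN, by rw [a0, aN]⟩

variable (x0 : u 0 ≤ x) (x1 : x < u 1) (yN : u N ≤ y) (y1 : y < u (N + 1))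
include x0 x1 yN y1

theorem sur : (pw w κ u V N).Sur w x y :=
  have := h.mono.monotone h.pos; have := h.lo; have := h.hi
  ⟨rfl, rfl, h.pt.rg (by omega) (by omega) y1.le, ⟨by omega, by omega, by omega, fun j a b =>
    ⟨_, (h.rd j (by omega) (by omega)).1⟩⟩, fun j q => ((pw_ag (m := m) n) j (by omega)).1.symm⟩

/-- **`RS` for a turn** -/
theorem rs (ok : w.OK) (fz : Finset Bs) {M : ℕ} (hN : N = M + 2) (A : Fin M → ℕ → ℤ) (i0 : Fin M)
    (A0 : ∀ i, A i 0 = 0 ∧ A i N = 0)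
    (gr : ∀ i j, ∑ k ∈ Ioc 0 N, lb (V (k - 1)) (V k) (A i (k - 1)) (A i k) (A j (k - 1)) (A j k) =
      if i = j then -1 else 0)
    (dg : ∀ i, |∑ k ∈ Ioc 0 N, lb (V (k - 1)) (V k) (m (k - 1)) (m k) (A i (k - 1)) (A i k)| =
      if i = i0 then 0 else 1)
    {a e a' e' b b' : ℤ} {k0 k1 k0' k1' : ℕ} (p0 : x < a) (p1 : a < u (k0 + 1)) (p2 : u k1 ≤ e) (p3 : e < y)
    (q0 : x < a') (q1 : a' < u (k0' + 1)) (q2 : u k1' ≤ e') (q3 : e' < y)
    (s : ∀ k ≤ N, k ≤ k0 ∨ k1 ≤ k → A i0 k + b * dt (V 0) (V k) = 0)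
    (s' : ∀ k ≤ N, k ≤ k0' ∨ k1' ≤ k → A i0 k + b' * dt (V 0) (V k) = 0) (o : Odd (b - b')) :
    Fm.RS ⟨pw w κ u V N, fz, ∅⟩ (pn u m N n) x y (.sA a e) (.sA a' e') := by
  have c := fun i => h.cls (A0 i).1 (A0 i).2
  have su : ∀ i, Sup x y (pn u (A i) N Wt.o) := fun i j q => (pw_ag (w := w) (κ := κ) (V := V) Wt.o j (by omega)).2
  have sup : ∀ {a e b : ℤ} {k0 k1 : ℕ}, a < u (k0 + 1) → u k1 ≤ e →
      (∀ k ≤ N, k ≤ k0 ∨ k1 ≤ k → A i0 k + b * dt (V 0) (V k) = 0) → Sup a e (cmb {i0} (fun _ => 1)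
        (fun i => pn u (A i) N Wt.o) b (fib (pw w κ u V N) x y)) := fun hx hy s j q => by
    simp only [cmb, sum_singleton, fib, one_mul]
    by_cases k : x < j ∧ j < y
    · obtain ⟨p, r⟩ := h.pt.rod (j := j) (by omega) (by omega)
      have i1 := ix_le h.mono (show u 0 ≤ j by omega)
      have i2 := lt_ix h.mono j
      simp only [if_pos k]
      rw [r, h.pt.s (Nat.zero_le _) x0 x1, (c i0).pt.nl p i1 i2, (c i0).pt.nr p i1 i2]
      have := s _ p (q.imp (fun q => Nat.lt_succ_iff.1 (h.mono.lt_iff_lt.1 (i1.trans_lt (q.trans_lt hx))))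
        fun q => Nat.lt_succ_iff.1 (h.mono.lt_iff_lt.1 ((hy.trans q).trans_lt i2)))
      exact ⟨this, this⟩
    · simp [if_neg k, su i0 j (by omega)]
  refine ⟨M, fun i => pn u (A i) N Wt.o, {i0}, fun _ => 1, b, b', ?_, fun i => ⟨?_, su i⟩, fun i j => ?_,
    fun i => ?_, by simp, by simp, by simp, by simp, trivial, trivial, p0, p3, trivial, trivial, q0, q3,
    sup p1 p2 s, sup q1 q2 s', o⟩
  · rw [card_filter, h.pt.sum h.pt (fun u u' _ _ _ _ => if dt u u' ≠ 0 then 1 else 0)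
      (fun _ _ _ _ _ => by simp [Wd38.dt_self]) le_rfl x0 x1 yN y1, sum_congr rfl fun k hk => if_pos ?_]
    · simp [hN]
    · rw [mem_Ioc] at hk
      have := h.uni (k - 1) (by omega)
      rw [show k - 1 + 1 = k by omega, Uni] at this
      omega
  · have k := ((c i).ok (Λ := ⟨fun _ _ _ => True, 0⟩) ok ⟨rfl, rfl, fun _ _ _ _ _ => rfl,
      fun _ _ _ _ _ => trivial, fun _ _ _ _ => rfl, fun _ _ _ _ => rfl⟩).2
    exact ⟨k.rod, k.eq, k.neg⟩
  · rw [← gr]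
    exact (c i).pt.sum (c j).pt lb lb_self le_rfl x0 x1 yN y1
  · simp only [mem_singleton]
    rw [← dg]
    exact congrArg _ (h.pt.sum (c i).pt lb lb_self le_rfl x0 x1 yN y1)

end Tq

/-! ### numbers -/

theorem lb_d (α x y x' y' : ℤ) : lb (α + 1, 1) (α, 1) x y x' y' = -((x - y) * (x' - y') : ℤ) := by
  simp [lb, dt, rho]; ring

theorem v_d (α x y : ℤ) : lp (α + 1, 1) (α, 1) x y = 0 ∧ uu (α + 1, 1) (α, 1) x y = 1 - (x - y) * (x - y) := by
  rw [uu, lq, lb_d]; simp [lp, lg, nn, dt]; ring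

theorem v_p (α x y : ℤ) : lp (α, 1) (α + 1, 1) x y = 1 ∧ uu (α, 1) (α + 1, 1) x y = (x - y) * (x - y) - 1 := by
  simp [lp, uu, lq, lb, lg, nn, dt, rho]; ring

theorem v_l (α x y : ℤ) : lp (α, 1) (1, 0) x y = 1 / 2 ∧ uu (α, 1) (1, 0) x 1 = α - 2 * x := by
  simp [lp, uu, lq, lb, lg, nn, dt, rho]; ring

theorem v_r (α x y : ℤ) : lp (1, 0) (α, 1) x y = 1 / 2 ∧ uu (1, 0) (α, 1) 1 y = 2 * y - α := by
  simp [lp, uu, lq, lb, lg, nn, dt, rho]; ring

theorem al_eq (a b : Z2) (x y : ℤ) : al a b x y = -3 / 4 * lp a b x y + uu a b x y / 2 := rfl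

theorem S_al : S w n al x y = -3 / 4 * S w n lp x y + S w n uu x y / 2 := by
  simp only [S, vx, al_eq, sum_add_distrib, mul_sum, sum_div]

/-- the rod `o` has slope `0`, then come the slopes `1 / (β - k)`; all heights are `0` or `2`, one is `1` -/
structure Ht (V : ℕ → Z2) (m : ℕ → ℤ) (N o sp : ℕ) (β : ℤ) : Prop where
  vo : V o = (1, 0)
  v : ∀ k, o < k → V k = (β - k, 1)
  h : ∀ k, o < k → k < N → if k + 1 = sp then m k = m (k + 1) + 1 else m k = m (k + 1) ∨ m k = m (k + 1) + 2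

/-- is the special vertex in the range -/
def sx (sp k0 k1 : ℕ) : ℤ := if k0 < sp ∧ sp ≤ k1 then 1 else 0

variable {o sp k0 k1 : ℕ} {β : ℤ}

theorem Ht.d (h : Ht V m N o sp β) {k : ℕ} (hk : o < k) : V k = (β - (k + 1 : ℕ) + 1, 1) := by
  rw [h.v k hk]; congr 1; push_cast; ring

theorem Ht.sg (h : Ht V m N o sp β) (h0 : o < k0) (h1 : k0 ≤ k1) (h2 : k1 ≤ N) :
    Sg lp V m k0 k1 = 0 ∧ Sg uu V m k0 k1 = (k1 - k0 - 2 * (m k0 - m k1) + sx sp k0 k1 : ℤ) ∧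
      Sg psi V m k0 k1 = (2 * (k1 - k0) - (m k0 - m k1) - sx sp k0 k1 : ℤ) := by
  induction k1, h1 using Nat.le_induction with
  | base => simp [Sg, sx]
  | succ k hk ih =>
    obtain ⟨a1, a2, a3⟩ := ih (by omega)
    have e := h.h k (by omega) h2
    simp only [Sg, sum_Ioc_succ_top hk, Nat.add_sub_cancel] at *
    rw [a1, a2, a3, h.d (show o < k by omega), h.v (k + 1) (by omega), psi, om, ← uu, (v_d _ _ _).1, (v_d _ _ _).2]
    have e1 : sx sp k0 (k + 1) = sx sp k0 k + if k + 1 = sp then 1 else 0 := by unfold sx; split_ifs <;> omega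
    rw [e1]
    by_cases q : k + 1 = sp
    · rw [if_pos q] at e
      rw [if_pos q, e]; push_cast; norm_num; constructor <;> ring
    · rw [if_neg q] at e
      rw [if_neg q]
      rcases e with e | e <;> rw [e] <;> push_cast <;> norm_num <;> constructor <;> ring

theorem Ht.S (h : Ht V m N o sp β) (p : Pt w n κ u V m N) (h0 : o < k0) (h1 : k0 ≤ k1) (h2 : k1 ≤ N)
    (a0 : u k0 ≤ x) (a1 : x < u (k0 + 1)) (b0 : u k1 ≤ y) (b1 : y < u (k1 + 1)) :
    S w n lp x y = 0 ∧ S w n uu x y = (k1 - k0 - 2 * (m k0 - m k1) + sx sp k0 k1 : ℤ) ∧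
      S w n psi x y = (2 * (k1 - k0) - (m k0 - m k1) - sx sp k0 k1 : ℤ) ∧ Df w x y := by
  rw [p.S vn_lp h2 a0 a1 b0 b1, p.S vn_uu h2 a0 a1 b0 b1, p.S vn_psi h2 a0 a1 b0 b1]
  obtain ⟨c1, c2, c3⟩ := h.sg h0 h1 h2
  refine ⟨c1, c2, c3, fun c q r => ?_⟩
  have := p.mono.monotone k0.zero_le
  have i1 := ix_le p.mono (show u 0 ≤ c - 1 by omega)
  have i2 := lt_ix p.mono (c - 1)
  have i3 : k0 < ix u (c - 1) + 1 := p.mono.lt_iff_lt.1 (by omega)
  have i4 : ix u (c - 1) < k1 + 1 := p.mono.lt_iff_lt.1 (by omega)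
  generalize ix u (c - 1) = k at *
  rw [p.lf (k := k) (by omega) (by omega) (by omega)]
  rcases (show c < u (k + 1) ∨ c = u (k + 1) by omega) with e | rfl
  · rw [p.rt (k := k) (by omega) (by omega) e]; exact .inl (Wd38.dt_self _)
  · have : k + 1 < k1 + 1 := p.mono.lt_iff_lt.1 (by omega)
    rw [p.rt (k := k + 1) (by omega) le_rfl (p.lt _), h.d (show o < k by omega), h.v (k + 1) (by omega)]
    exact .inr (by simp [nn, dt])

/-- the class of the sphere over the rods `o + 1, …, j` -/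
def cl (o j k : ℕ) : ℤ := if o < k ∧ k ≤ j then 1 else 0

theorem Ht.pr (h : Ht V m N o sp β) (a : ℕ → ℤ) {j : ℕ} (h0 : o < j) (h1 : j < N) :
    ∑ k ∈ Ioc 0 N, lb (V (k - 1)) (V k) (a (k - 1)) (a k) (cl o j (k - 1)) (cl o j k) =
      (a o - (a j - a (j + 1)) : ℤ) := by
  rw [sum_eq_add (o + 1) (j + 1) (by omega) (fun k hk e => ?_) (fun k => (k (mem_Ioc.2 (by omega))).elim)
    fun k => (k (mem_Ioc.2 (by omega))).elim]
  · simp only [Nat.add_sub_cancel]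
    rw [h.vo, h.v (o + 1) (by omega), h.d h0, h.v (j + 1) (by omega), lb_d]
    simp [cl, h0, lb, dt, rho, Nat.succ_le_of_lt h0]; ring
  · rw [mem_Ioc] at hk
    by_cases q : o + 1 < k
    · obtain ⟨k, rfl⟩ : ∃ k', k = k' + 1 := ⟨k - 1, by omega⟩
      rw [Nat.add_sub_cancel, h.d (show o < k by omega), h.v (k + 1) (by omega), lb_d,
        show cl o j k - cl o j (k + 1) = 0 by unfold cl; split_ifs <;> omega]
      simp
    · rw [cl, cl, if_neg (by omega), if_neg (by omega)]; simp [lb]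

/-! ### twists -/

/-- the twists in the rods `j + 2, …, 3` -/
def tl (u : ℕ → ℤ) (V : ℕ → Z2) : ℕ → List Tw
  | 0 => []
  | j + 1 => twk u V (j + 2) :: tl u V j

/-- the orders after the twists -/
def sh (j : ℕ) (m : ℕ → ℤ) (k : ℕ) : ℤ := if 3 ≤ k ∧ k ≤ j + 2 then m (k - 1) - 1 else m k

theorem tl_mem {j : ℕ} {τ : Tw} (h : τ ∈ tl u V j) : ∃ k < j, τ = twk u V (k + 2) := by
  induction j with
  | zero => simp [tl] at h
  | succ j ih =>
    rcases List.mem_cons.1 h with h | h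
    exacts [⟨j, by omega, h⟩, (ih h).imp fun k q => ⟨by omega, q.2⟩]

theorem vv3 (hv : ∀ k, 1 < k → V k = (β - k, 1)) (k : ℕ) :
    Uni (V (k + 2)) (V (k + 2 + 1)) ∧ V (k + 2 + 2) = -V (k + 2) + (2 : ℤ) • V (k + 2 + 1) := by
  rw [hv _ (by omega), hv _ (by omega), hv _ (by omega)]
  exact ⟨.inl (by simp [dt]), by ext <;> simp; ring⟩

theorem tl_acts (hv : ∀ k, 1 < k → V k = (β - k, 1)) {j : ℕ} (hj : j + 3 ≤ N) (p : Pt w n κ u V m N)
    (e : m (j + 2) = m (j + 3) + 1) : Pt w (acts w (tl u V j) n) κ u V (sh j m) N := by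
  induction j generalizing n m with
  | zero => exact p.congr fun k _ => (if_neg (by omega)).symm
  | succ j ih =>
    refine (ih (by omega) (p.twk_act (k := j + 2) (by omega) (vv3 hv j).2) ?_).congr fun k _ => ?_
    · rw [Function.update_of_ne (by omega), Function.update_self]
      simp only [add_assoc, Nat.reduceAdd] at e ⊢; omega
    · simp only [sh, Function.update_apply, add_assoc, Nat.reduceAdd] at e ⊢
      split_ifs <;> first | rfl | omega | (subst_vars; simp only [Nat.reduceSubDiff]; omega)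

/-! ### windows of a turn -/

variable {F : Fm Γ} {v v' : ℝ × ℝ} {σ : Finset Bs}

/-- a window with `b⁺ = 1`, `Λ² - σ = 1` -/
structure Tw1 (F : Fm Γ) (n : Wt) (z s t : ℤ) (v v' : ℝ × ℝ) : Prop where
  cw : Cw F s t z
  tz : t ≤ z
  elp : S F.w n lp s t = 1
  euu : S F.w n uu s t = 1
  le : v' ≤ v

/-- an arc with `In1` -/
structure Ar (F : Fm Γ) (n : Wt) (s t x y : ℤ) : Prop where
  ok : (Bs.sA x y).OK F.w
  lo : s < x
  hi : y < t
  i : In1 F.w n x y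

/-- a slice with charge `c`, definite on the right -/
structure Sc1 (F : Fm Γ) (n : Wt) (s t x : ℤ) (v v' : ℝ × ℝ) (c U : ℤ) : Prop where
  ok : (Bs.sS x).OK F.w
  lo : s < x
  hi : x < t
  hc : |c| ≤ 1
  df : Df F.w x t
  elp : S F.w n lp x t = 0
  euu : S F.w n uu x t = U
  l1 : 1 + 2 * (U : ℝ) - 4 * c ≤ 4 * v.1
  l2 : (5 + U - 2 * c - 3 * ((1 - U) % 4) : ℤ) ≤ 2 * v.2
  r1 : 4 * v'.1 ≤ 2 * U + 13 - 4 * c
  r2 : v'.2 ≤ S F.w n psi x t + (1 - c)

theorem Ar.out (A : Ar F n s t x y) {t' : ℤ} (h : y ≤ t') :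
    S F.w n lp s x + S F.w n lp y t' + vv F.w lp n (.sA x y) = S F.w n lp s t' ∧
      S F.w n uu s x + S F.w n uu y t' + vv F.w uu n (.sA x y) = S F.w n uu s t' - 1 := by
  have xy := A.ok.1.lt
  rw [S_cut A.lo.le (xy.le.trans h), S_cut xy.le h, S_cut (φ := uu) A.lo.le (xy.le.trans h), S_cut xy.le h]
  exact ⟨by linarith [A.i.1], by linarith [A.i.2]⟩

namespace Tw1

variable (h : Tw1 F n z s t v v') {c U : ℤ}
include h

theorem p0 (k : (wn s t σ).Nonempty) (η : Bs → Bool) : F.Pc z 0 n σ ∅ (cf 0) s t v v' η :=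
  pc_0 (m := 1) h.cw (by exact_mod_cast k.card_pos) (by
    rw [h.elp, h.euu]
    exact ⟨by linarith [h.le.1], .inr ⟨1, .inr ⟨.inr h.tz, rr1⟩, by linarith [h.le.2]⟩⟩)

theorem nq (B : Finset Bs) (η : Bs → Bool) : Nq F n B η s t z (v'.1 - v.1) (v'.2 - v.2) 1 (1 - 1) 0 0 (-3) :=
  ⟨by linarith [h.le.1], .inr ⟨0, .inl rfl, by linarith [h.le.2]⟩⟩

theorem a (A : Ar F n s t x y) : Wp F z n s t v v' {.sA x y} := ⟨0, by simp, fun σ η => by
  cases e : η (.sA x y)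
  · exact pc_in h.cw (by simpa [Bs.pin] using ⟨A.ok, A.hi⟩) (mem_singleton_self _) A.lo e A.i _ (by simp)
  · exact pc_o h.cw A.ok A.lo A.hi e (by rw [(A.out A.hi.le).1, (A.out A.hi.le).2, h.elp, h.euu]; exact h.nq _ _)⟩

theorem aa (A : Ar F n s t x y) (A' : Ar F n s t x' y') (h1 : x' < x) (h2 : y < y') :
    Wp F z n s t v v' {.sA x y, .sA x' y'} := ⟨0, by simp, fun σ η => by
  have xy := A.ok.1.lt
  cases e : η (.sA x y)
  · exact pc_in h.cw (by simpa [Bs.pin] using ⟨⟨A.ok, A.hi⟩, A'.ok, A'.hi⟩) (by simp) A.lo e A.i _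
      (by simp [Bs.hi, Bs.lo, Bs.arc, h1, h2])
  cases e' : η (.sA x' y')
  · refine pc_aa h.cw A.ok A'.ok A'.lo h1 h2 A'.hi e e' ?_
    obtain ⟨a1, a2⟩ := (⟨A.ok, h1, h2, A.i⟩ : Ar F n x' y' x y).out h2.le
    rw [← add_sub_assoc, ← add_sub_assoc, a1, a2, A'.i.1, sub_right_comm, A'.i.2]
    exact ⟨by norm_num, .inr ⟨0, .inl rfl, by norm_num⟩⟩
  · exact pc_oo h.cw A.ok A'.ok A'.lo h1 h2 A'.hi e e'
      (by rw [(A'.out A'.hi.le).1, (A'.out A'.hi.le).2, h.elp, h.euu]; exact h.nq _ _)⟩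

variable (B : Sc1 F n s t x v v' c U)
include B

theorem lft : S F.w n lp s x = 1 ∧ S F.w n uu s x = (1 - U : ℤ) := by
  have a1 := h.elp
  have a2 := h.euu
  rw [S_cut B.lo.le B.hi.le] at a1 a2
  push_cast
  exact ⟨by linarith [B.elp], by linarith [B.euu]⟩

omit h in
theorem rgt : v'.1 ≤ S F.w n al x t + (13 / 4 - c) := by rw [S_al, B.elp, B.euu]; linarith [B.r1]

theorem sl : Wp F z n s t v v' {.sS x} := ⟨c, B.hc, fun σ η => by
  cases e : η (.sS x)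
  · refine pc_l h.cw B.ok B.lo B.hi e ?_
    rw [(h.lft B).1, (h.lft B).2]
    have := B.l2
    exact ⟨by push_cast; linarith [B.l1], .inr ⟨_, .inr ⟨.inr h.tz, rr_int _⟩, by push_cast at *; linarith⟩⟩
  · exact pd_r h.cw h.tz B.lo B.hi B.df e (rgt B) B.r2⟩

theorem as (A : Ar F n s t x' y') (k : y' < x) : Wp F z n s t v v' {.sA x' y', .sS x} := ⟨c, B.hc, fun σ η => by
  have xy := A.ok.1.lt
  cases e : η (.sA x' y')
  · exact pc_in h.cw (by simpa [Bs.pin] using ⟨⟨A.ok, A.hi⟩, B.ok, B.hi⟩) (by simp) A.lo e A.i _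
      (by simp [Bs.lo, k])
  cases e' : η (.sS x)
  · refine pc_al h.cw A.ok B.ok A.lo k B.hi e e' ?_
    rw [(A.out k.le).1, (A.out k.le).2, (h.lft B).1, (h.lft B).2, show ((1 - U : ℤ) : ℝ) - 1 = (-U : ℤ) by simp]
    have := B.l2
    have : (((1 - U) % 4 : ℤ) : ℝ) ≤ (-U % 4 + 1 : ℤ) := Int.cast_le.2 (by omega)
    exact ⟨by push_cast; linarith [B.l1], .inr ⟨_, .inr ⟨.inr h.tz, rr_int _⟩, by push_cast at *; linarith⟩⟩
  · exact pd_ar h.cw h.tz xy A.lo k B.hi B.df e e' (rgt B) B.r2⟩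

end Tw1

end Crest.Agent.X212.Nm96
end
end

-- ▼ part X212/Nm96/Pd
section

/-!
# Row 212, `p = 1` (helper96), part d: the states of the walk
-/

set_option autoImplicit false
noncomputable section

namespace Crest.Agent.X212.Nm96

open Crest.Agent.X212.Rod53 Crest.Agent.X212.Wd38 Finset Cn

variable {Γ : Nm}

variable (Γ) in
/-- the fixed tail -/
structure Fx where
  F : Fm Γ
  n : Wt
  A : Finset Bs
  z : ℤ
  b : ℤ

/-- right of the gap: definite up to `b`, couplings `g 0 < … < g (K - 1)`, the tail is fixed -/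
structure Am (X : Fx Γ) (F : Fm Γ) (n : Wt) (y : ℤ) (K : ℕ) (g : ℕ → ℤ) (c : Cn) : Prop where
  cb : F.Cut X.b
  df : Df F.w y X.b
  g1 : ∀ i < K, y < g i ∧ g i ≤ X.b ∧ F.Cut (g i)
  g2 : ∀ i, i + 1 < K → g i < g (i + 1)
  r : F.w.r = X.F.w.r
  aq : Aq X.F.w F.w X.n n (X.b ≤ ·)
  twf : ∀ a ∈ F.fz, X.b < a.lo → a ∈ X.A
  twc : ∀ a ∈ c.walls, X.b < a.b.lo → a.b ∈ X.A

/-- **the state**: the rod `v` of order `μ` on the gap `[x, y]` -/
structure St (P : Pm Γ) (T : WTh Γ) (κ : Γ.ι) (X : Fx Γ) (v : Z2) (μ : ℤ) (k : ℝ) (F : Fm Γ) (n : Wt) (x y Q : ℤ)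
    (K : ℕ) (g : ℕ → ℤ) (d : ℕ) (c : Cn) : Prop where
  fr : Fr P F n X.z x y X.b
  cx : F.Cut x
  cy : F.Cut y
  fz : ∀ a ∈ F.fz, a.lo ≤ x ∨ y ≤ a.lo
  rd : Rd F.w n κ v μ x y
  am : Am X F n y K g c
  q : -2 ≤ Q ∧ Q ≤ 5
  cc : Cc P F n X.z x y X.b ((13 - Q) / 4, k) Q K g d c
  ne : T.Z F d c ≠ 0

/-- the rods of the turn on `(-i, 1)` -/
def VT (q i k : ℕ) : Z2 := if k = 0 then (-(i : ℤ), 1) else if k = 1 then (1, 0) else ((q : ℤ) + 2 - k, 1)

/-- its orders -/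
def mu (q i tL tR k : ℕ) : ℤ := if k = 0 ∨ k = q + i + 2 then q - i else if k = 1 then 1 else
  q - i + 1 + 2 * (tL + tR) - 2 * (min (k - 2) tL + min (k - (q + 2)) tR : ℕ)

/-- **terminal states**: `a = u 1 + 4`, `h = u 2 + 1`, `s = u (q + 2) + 4`; the type is `(i, tL, tR, Q)` -/
structure Tr (P : Pm Γ) (T : WTh Γ) (κ : Γ.ι) (X : Fx Γ) (q i tL tR : ℕ) (Q : ℤ) (F : Fm Γ) (n : Wt) (u : ℕ → ℤ)
    (K : ℕ) (g : ℕ → ℤ) (d : ℕ) (c : Cn) : Prop where
  i1 : 1 ≤ i ∧ i ≤ q ∧ tL ≤ q ∧ tR < i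
  st : St P T κ X (q, 1) (mu q i tL tR 2) 5 F n (u 2 + 1) (u 3 - 2) Q K g d c
  pt : Pt F.w n κ u (VT q i) (mu q i tL tR) (q + i + 2)
  gap : ∀ k, u k + 8 ≤ u (k + 1)
  hi : u (q + i + 2) < X.b
  fa : .yS (u 1 + 4) ∈ F.fz
  side : ∀ a ∈ c.walls.image Wl.b ∪ F.fz,
    a = .yS (u 1 + 4) ∨ a = .yS (u 2 + 1) ∨ a.hi < u 1 + 4 ∨ u 2 + 1 < a.lo
  s : ↑(Bs.sS (u (q + 2) + 4)) ∈ c.walls
  nl : ∀ p ∈ c.support, ∃ v v', F.Win X.z 0 n (p.2.image Wl.b) (F.w.l - 1) (u 1 + 4) v v' ∧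
    v'.1 + S F.w n al (u 1 + 4) (u 2 + 1) = (13 - Q) / 4

/-- the head has a fixed length -/
def Off (q : ℕ) (u : ℕ → ℤ) : Prop := ∀ k, 1 ≤ k → k ≤ q + 2 → u k = u 1 + 8 * (k - 1 : ℤ)

/-- TERMINAL: no terminal state of a given type with many letters -/
def TrStmt : Prop := ∀ {Γ : Nm} (P : Pm Γ) (T : WTh Γ) (κ : Γ.ι) (X : Fx Γ) (q i tL tR : ℕ) (Q : ℤ),
  Tm38.FactW P T → ∃ N₀, ∀ F n u K g d c, N₀ ≤ K → Off q u → ¬Tr P T κ X q i tL tR Q F n u K g d c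

/-- ENTRY: long rods `(q, 1)` in front of a fixed tail -/
def EnStmt : Prop := ∀ {Γ : Nm} (P : Pm Γ) (T : WTh Γ) (κ : Γ.ι) (c ci : Γ.J) (q : ℕ), 1 ≤ q → Ax0 P T →
  Ent P κ c ci → ∃ X : Fx Γ, ∀ L, ∃ μ F n x y Q d c, St P T κ X (q, 1) μ 5 F n x y Q 0 (fun _ => 0) d c ∧ x + L ≤ y

variable {q i tL tR : ℕ}

theorem ht_mu (hL : tL ≤ q) (hR : tR < i) :
    Ht (VT q i) (mu q i tL tR) (q + i + 2) 1 (q + i + 2) (q + 2) :=
  ⟨rfl, fun k h => by rw [VT, if_neg (by omega), if_neg (by omega)], fun k h h' => by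
    have a : min (k + 1 - 2) tL + min (k + 1 - (q + 2)) tR = min (k - 2) tL + min (k - (q + 2)) tR ∨
      min (k + 1 - 2) tL + min (k + 1 - (q + 2)) tR = min (k - 2) tL + min (k - (q + 2)) tR + 1 := by omega
    have b : k + 1 = q + i + 2 → min (k - 2) tL + min (k - (q + 2)) tR = tL + tR := by omega
    unfold mu
    generalize min (k + 1 - 2) tL + min (k + 1 - (q + 2)) tR = A at *
    generalize min (k - 2) tL + min (k - (q + 2)) tR = B at *
    rw [if_neg (show ¬(k = 0 ∨ _) by omega), if_neg (show k ≠ 1 by omega)]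
    by_cases e : k + 1 = q + i + 2
    · rw [if_pos e, if_pos (.inr e)]; omega
    · rw [if_neg e, if_neg (by omega), if_neg (by omega)]; omega⟩

variable {P : Pm Γ} {X : Fx Γ} {F F' : Fm Γ} {n n' : Wt} {x y y' : ℤ} {K : ℕ} {g : ℕ → ℤ} {c c' : Cn}

theorem Am.tr (h : Am X F n y K g c) (yb : y ≤ X.b) (r : F'.w.r = F.w.r) (e : Aq F.w F'.w n n' (y ≤ ·))
    (f : F.fz ⊆ F'.fz) (f' : ∀ a ∈ F'.fz, a ∈ F.fz ∨ a.lo ≤ y) (h1 : y' ≤ y) (df : Df F'.w y' y)
    (w : ∀ a ∈ c'.walls, a ∈ c.walls ∨ a.b.lo ≤ y) : Am X F' n' y' K g c' :=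
  have cut : ∀ j, y ≤ j → F.Cut j → F'.Cut j := fun j p k => ⟨f k.1, (e j p).1 ▸ k.2⟩
  ⟨cut _ yb h.cb, df.trans fun j p q => by
      rw [Shp.lf, Shp.rt, (e j p.le).1, (e (j - 1) (by simp only; omega)).1]; exact h.df j p q,
    fun i k => ⟨h1.trans_lt (h.g1 i k).1, (h.g1 i k).2.1, cut _ (h.g1 i k).1.le (h.g1 i k).2.2⟩, h.g2,
    r.trans h.r, h.aq.trans (e.mono fun _ q => yb.trans q),
    fun a k q => (f' a k).elim (h.twf a · q) fun i => by omega,
    fun a k q => (w a k).elim (h.twc a · q) fun i => by omega⟩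

/-- one more coupling -/
def gs (y : ℤ) (g : ℕ → ℤ) : ℕ → ℤ
  | 0 => y
  | i + 1 => g i

theorem cnt_gs (u : ℤ) : cnt (gs y g) (K + 1) u = cnt g K u + if u < y then 1 else 0 := by
  rw [cnt, cnt, card_filter, card_filter, sum_range_succ']; rfl

theorem Am.gs (h : Am X F n y K g c) (h' : Am X F n y' K g c') (lt : y' < y) (yb : y ≤ X.b) (cy : F.Cut y) :
    Am X F n y' (K + 1) (gs y g) c' :=
  { h' with
    g1 := fun i k => match i with
      | 0 => ⟨lt, yb, cy⟩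
      | i + 1 => h'.g1 i (by omega)
    g2 := fun i k => match i with
      | 0 => (h.g1 0 (by omega)).1
      | i + 1 => h.g2 i (by omega) }

theorem Am.cnt (h : Am X F n y K g c) {u : ℤ} (k : u ≤ y) : cnt g K u = K := by
  rw [Nm96.cnt, filter_true_of_mem fun i q => k.trans_lt (h.g1 i (mem_range.1 q)).1, card_range]

theorem walls_mp (f : Wt → Wt) : ∀ a ∈ (c.mp f id ∅).walls, a ∈ c.walls := fun a k => by
  obtain ⟨_, hq, i⟩ := mem_walls.1 k
  obtain ⟨p, hp, rfl⟩ := mem_mp hq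
  exact mem_walls.2 ⟨p, hp, by simpa using i⟩

theorem walls_J {a e i : Wl} (k : i ∈ (J a e c).walls) : i ∈ c.walls ∨ i = a ∨ i = e := by
  obtain ⟨_, hq, j⟩ := mem_walls.1 k
  obtain ⟨p, hp, rfl | rfl⟩ := mem_J hq <;> rcases mem_insert.1 j with j | j
  exacts [.inr (.inl j), .inl (mem_walls.2 ⟨p, hp, j⟩), .inr (.inr j), .inl (mem_walls.2 ⟨p, hp, j⟩)]

end Crest.Agent.X212.Nm96
end
end

-- ▼ part X212/Nm96/Pe
section

/-!
# Row 212, `p = 1` (helper96), part e: tools for one turn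
-/

set_option autoImplicit false
noncomputable section

namespace Crest.Agent.X212.Nm96

open Crest.Agent.X212.Rod53 Crest.Agent.X212.Wd38 Finset Cn

variable {Γ : Nm} {P : Pm Γ} {T : WTh Γ} {F : Fm Γ} {w : Shp Γ} {n : Wt} {κ : Γ.ι} {u m : ℕ → ℤ} {V : ℕ → Z2}
  {x y z b s t x' y' β Q Q' : ℤ} {N o sp k q i d K : ℕ} {ts : List Tw} {v v' vL : ℝ × ℝ} {a e : Wl} {σ : Finset Bs}
  {c : Cn} {ρ : Finset Wl} {g : ℕ → ℤ}

theorem Ax0_ne (X : Ax0 P T) (cl : F.Cl P d c) (h : T.Z F d c ≠ 0) : c.support.Nonempty := by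
  refine Finsupp.support_nonempty_iff.2 fun e => h ?_
  subst e
  have := X.add F d 0 0 cl cl
  rw [add_zero] at this
  exact this.trans (CharTwo.add_self_eq_zero _)

theorem Ht.sh {j : ℕ} (h : Ht V m (j + 4) 1 (j + 4) β) : Ht V (sh (j + 1) m) (j + 4) 1 3 β :=
  ⟨h.vo, h.v, fun k p q => by
    have a := h.h (j + 3) (by omega) (by omega)
    rw [if_pos rfl] at a
    have e : Nm96.sh (j + 1) m (k + 1) = m k - 1 := by
      unfold Nm96.sh
      split_ifs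
      · rfl
      · obtain rfl : k = j + 3 := by omega
        omega
    rw [e, Nm96.sh]
    by_cases r : k = 2
    · rw [if_pos (by omega), if_neg (by omega)]; omega
    · have := h.h (k - 1) (by omega) (by omega)
      rw [if_neg (by omega), show k - 1 + 1 = k by omega] at this
      rw [if_neg (by omega), if_pos (by omega)]; omega⟩

/-- from the rod of slope `0` -/
theorem Ht.s1 (h : Ht V m N o sp β) (p : Pt w n κ u V m N) (m1 : m o = 1) (hk : o < k) (hk' : k ≤ N)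
    (a0 : u o ≤ x) (a1 : x < u (o + 1)) (b0 : u k ≤ y) (b1 : y < u (k + 1)) :
    Wd38.S w n lp x y = 1 / 2 ∧ Wd38.S w n uu x y = (2 * m k - (β - k) + sx sp (o + 1) k : ℤ) := by
  have := p.mono.monotone (show o + 1 ≤ k from hk)
  have l := p.lt (o + 1)
  obtain ⟨c1, c2, -⟩ := h.S p (k0 := o + 1) (by omega) hk hk' le_rfl l b0 b1
  rw [S_cut a1.le (by omega), S_cut (φ := uu) a1.le (by omega), c1, c2, p.S vn_lp (by omega) a0 a1 le_rfl l,
    p.S vn_uu (by omega) a0 a1 le_rfl l, Nat.Ioc_succ_singleton, sum_singleton, sum_singleton, Nat.add_sub_cancel,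
    h.vo, h.v _ (by omega), m1, (v_r _ _ _).1, (v_r _ 0 _).2]
  push_cast
  exact ⟨by ring, by ring⟩

theorem Ht.ar (h : Ht V m N o sp β) (p : Pt F.w n κ u V m N) (m1 : m o = 1) (hk : o < k) (hk' : k ≤ N)
    (a0 : u o ≤ x) (a1 : x < u (o + 1)) (b0 : u k ≤ y) (b1 : y < u (k + 1)) (e : sx sp (o + 1) k = 1)
    (lo : s < x) (hi : y < t) : Ar F n s t x y := by
  have := p.mono.monotone (show o + 1 ≤ k from hk)
  obtain ⟨c1, c2⟩ := h.s1 p m1 hk hk' a0 a1 b0 b1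
  refine ⟨p.okA (by omega) a0 a1 hk' b0 b1 (by omega) (by rw [h.vo, h.v k hk]; exact .inl (by simp [dt])), lo, hi, ?_⟩
  rw [In1, c1, c2, p.vv (by omega) hk' a0 a1 b0 b1, p.vv (by omega) hk' a0 a1 b0 b1, h.vo, h.v k hk, m1,
    (v_r _ _ _).1, (v_r _ 0 _).2, e]
  push_cast
  exact ⟨by ring, by ring⟩

/-- from the first rod of a turn -/
theorem Ht.s0 (h : Ht (VT q i) m N 1 sp (q + 2)) (p : Pt w n κ u (VT q i) m N) (m1 : m 1 = 1) (hk : 1 < k)
    (hk' : k ≤ N) (a0 : u 0 ≤ x) (a1 : x < u 1) (b0 : u k ≤ y) (b1 : y < u (k + 1)) :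
    Wd38.S w n lp x y = 1 ∧ Wd38.S w n uu x y = (-i - 2 * m 0 + (2 * m k - (q + 2 - k) + sx sp 2 k) : ℤ) := by
  have := p.mono.monotone hk.le
  have l := p.lt 1
  obtain ⟨c1, c2⟩ := h.s1 p m1 hk hk' le_rfl l b0 b1
  rw [S_cut a1.le (by omega), S_cut (φ := uu) a1.le (by omega), c1, c2, p.S vn_lp (by omega) a0 a1 le_rfl l,
    p.S vn_uu (by omega) a0 a1 le_rfl l, show Ioc 0 1 = {1} from rfl, sum_singleton, sum_singleton, m1]
  change lp (-(i : ℤ), 1) (1, 0) _ _ + _ = _ ∧ uu (-(i : ℤ), 1) (1, 0) _ _ + _ = _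
  rw [(v_l _ _ _).1, (v_l _ _ 0).2]
  push_cast
  exact ⟨by ring, by ring⟩

/-! ### filling the gap -/

/-- no frozen slice inside -/
def Fz (F : Fm Γ) (x y : ℤ) : Prop := ∀ f ∈ F.fz, f.hi ≤ x ∨ y ≤ f.lo

theorem fz_of (ok : F.OK P) (h : ∀ a ∈ F.fz, a.lo ≤ x ∨ y ≤ a.lo) : Fz F x y := fun f k => by
  obtain ⟨-, j, rfl⟩ := ok.fz f k
  exact h _ k

/-- a wall inside -/
structure Wa (F : Fm Γ) (x y : ℤ) (ts : List Tw) (a : Wl) : Prop where
  ok : a.b.OK F.w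
  lo : x < a.b.lo
  hi : a.b.hi < y
  tw : a.tw = ts ∨ (a.tw = [] ∧ ∀ τ ∈ ts, τ.Off a.b)

theorem Ar.wa (A : Ar F n s t x y) : Wa F s t ts ⟨.sA x y, ts⟩ := ⟨A.ok, A.lo, A.hi, .inl rfl⟩

theorem Sc1.wa {c U : ℤ} (A : Sc1 F n s t x v v' c U) : Wa F s t ts ⟨.sS x, ts⟩ := ⟨A.ok, A.lo, A.hi, .inl rfl⟩

theorem inn_two (ls : F.ls = ∅) (fz : Fz F x y) (h : ∀ τ ∈ ts, τ.OK F.w ∧ x < τ.x ∧ τ.y < y) (ha : Wa F x y ts a)
    (he : Wa F x y ts e) (far : a = e ∨ a.b.Far e.b) : Inn F x y ts {a, e} := by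
  have w : ∀ i ∈ ({a, e} : Finset Wl), Wa F x y ts i := by simpa using ⟨ha, he⟩
  have pf := Fm.pops_full (σ := {a, e}) ls (fun τ k => ⟨(h τ k).1, fun f i => by
    have := fz f i; have := h τ k; unfold Tw.Off; omega⟩) fun i k => (w i k).tw
  have sy : a.b.Far e.b → e.b.Far a.b := by unfold Bs.Far; tauto
  have ne : a.b.Far e.b → a.b ≠ e.b := fun k q => by
    have := lo_ne (wf_of_ok ha.ok).1 (wf_of_ok he.ok).1 k
    rw [q] at this; omega
  refine ⟨fun i p j r k => ?_, fun i k => ⟨(w i k).ok, (w i k).lo, (w i k).hi⟩, fun i p j r k => ?_,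
    fun i k f r => by have := fz f r; have := (w i k).lo; have := (w i k).hi; unfold Bs.Far; omega,
    fun τ k => (h τ k).2, pf.1, pf.2⟩
  · simp only [coe_insert, coe_singleton, Set.mem_insert_iff, Set.mem_singleton_iff] at p r
    rcases p with rfl | rfl <;> rcases r with rfl | rfl
    exacts [rfl, far.elim id fun f => (ne f k).elim, far.elim Eq.symm fun f => (ne f k.symm).elim, rfl]
  · simp only [image_insert, image_singleton, mem_insert, mem_singleton] at p r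
    rcases p with rfl | rfl <;> rcases r with rfl | rfl
    exacts [(k rfl).elim, far.elim (fun f => (k (f ▸ rfl)).elim) id, far.elim (fun f => (k (f ▸ rfl)).elim) sy,
      (k rfl).elim]

theorem inn_one (ls : F.ls = ∅) (fz : Fz F x y) (h : ∀ τ ∈ ts, τ.OK F.w ∧ x < τ.x ∧ τ.y < y) (ha : Wa F x y ts a) :
    Inn F x y ts {a} := pair_eq_singleton a ▸ inn_two ls fz h ha ha (.inl rfl)

theorem Inn.mono (I : Inn F x' y' ts ρ) (h : x ≤ x') (h' : y' ≤ y) : Inn F x y ts ρ :=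
  { I with
    ok := fun a k => ⟨(I.ok a k).1, h.trans_lt (I.ok a k).2.1, (I.ok a k).2.2.trans_le h'⟩
    tw := fun a k => ⟨h.trans_lt (I.tw a k).1, (I.tw a k).2.trans_le h'⟩ }

theorem Tw1.win1 {a : Bs} (h : Tw1 F n z s t v v') (k : wn s t σ = {a}) (W : a.pin → Wp F z n s t v v' {a}) :
    F.Win z 0 n σ s t v v' :=
  win_two (a := a) (e := a) h.cw.ls (by simp [k]) (h.p0 (by simp [k])) (fun _ => W) (fun _ => W) fun _ _ q => (q rfl).elim

theorem Tw1.fi1 (h : Tw1 F (acts F.w ts n) z x y v v') (I : Inn F x y ts {a}) (p : a.b.pin)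
    (W : Wp F z (acts F.w ts n) x y v v' {a.b}) : Fi F n z x y v v' {a} :=
  ⟨ts, I, by simpa using ⟨okn_of_pin p, okn_of_pin p, .inl p⟩, fun _ k => h.win1 (by simpa using k) fun _ => W⟩

theorem Tw1.fi2 (h : Tw1 F (acts F.w ts n) z x y v v') (I : Inn F x y ts {a, e}) (p : a.b.pin) (p' : e.b.pin)
    (W : Wp F z (acts F.w ts n) x y v v' {a.b}) (W' : Wp F z (acts F.w ts n) x y v v' {e.b})
    (W2 : Wp F z (acts F.w ts n) x y v v' {a.b, e.b}) : Fi F n z x y v v' {a, e} :=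
  ⟨ts, I, by simpa using ⟨⟨okn_of_pin p, okn_of_pin p, .inl p⟩, okn_of_pin p', okn_of_pin p', .inl p'⟩,
    fun _ k => win_two h.cw.ls (by simp [k]) (h.p0 (by simp [k])) (fun _ _ => W) (fun _ _ => W') fun _ _ _ _ _ => W2⟩

theorem Tw1.fiR {x₁ y₁ : ℤ} (h : Tw1 F n z x y v v') (fz : Fz F x y) (A : Ar F n x y x₁ y₁)
    (o : (Bs.rA x' y').OK F.w) (o' : (Bs.rA x' y').OKn F.w n) (h0 : x < x') (h1 : x' < x₁) (h2 : y₁ < y')
    (h3 : y' < y) : Fi F n z x y v v' {↑(Bs.rA x' y'), ↑(Bs.sA x₁ y₁)} :=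
  ⟨[], inn_two h.cw.ls fz (by simp) ⟨o, h0, h3, .inl rfl⟩ A.wa (.inr (.inr (.inr (.inl ⟨trivial, h1, h2, trivial⟩)))),
    by simpa [acts] using ⟨o', trivial⟩, fun _ k => win_two (a := .rA x' y') (e := .sA x₁ y₁) h.cw.ls (by simp [k])
      (h.p0 (by simp [k])) (fun _ => False.elim) (fun _ _ => h.a A) fun _ _ _ => False.elim⟩

/-- no vertex -/
def Ft (w : Shp Γ) (s t : ℤ) : Prop := ∀ c, s < c → c ≤ t → dt (w.lf c) (w.rt c) = 0

theorem ft_rd {τ : Z2} {μ : ℤ} (h : Rd w n κ τ μ s t) : Ft w s t := fun c p q => by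
  rw [Shp.lf, Shp.rt, (h c p.le q).1, (h (c - 1) (by omega) (by omega)).1]; exact Wd38.dt_self _

theorem Ft.df (h : Ft w s t) : Df w s t := fun c p q => .inl (h c p q)

theorem Ft.S {φ : Z2 → Z2 → ℤ → ℤ → ℝ} (h : Ft w s t) (k : Vn φ) : S w n φ s t = 0 :=
  S_zero k fun c p q _ _ => h c p q

theorem win_df (H : Cw F s t z) (tz : t ≤ z) (df : Df F.w s t) (k1 : v'.1 - v.1 ≤ S F.w n al s t)
    (k2 : v'.2 - v.2 ≤ S F.w n psi s t) (k : ∀ a ∈ wn s t σ, ¬a.pin) : F.Win z 0 n σ s t v v' :=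
  win_of H.ls fun B hB hp => by
    rw [show B = ∅ from eq_empty_of_forall_notMem fun a q => k a (hB q) (hp a q)]
    exact ⟨0, by simp, fun η => pd_0 (m := 0) H tz df (Nat.cast_nonneg _) (by linarith) (by linarith)⟩

theorem win_ft (H : Cw F s t z) (tz : t ≤ z) (f : Ft F.w s t) (le : v' ≤ v) (k : ∀ a ∈ wn s t σ, ¬a.pin) :
    F.Win z 0 n σ s t v v' :=
  win_df H tz f.df (by rw [f.S vn_al]; linarith [le.1]) (by rw [f.S vn_psi]; linarith [le.2]) k

theorem fi_ft (H : Cw F s t z) (tz : t ≤ z) (f : Ft F.w s t) (le : v' ≤ v) : Fi F n z s t v v' ∅ :=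
  ⟨[], inn_empty, by simp, fun _ k => win_ft H tz f le (by simp [k])⟩

theorem win_hg (ls : F.ls = ∅) (h : wn s t σ = ∅) (Y : F.Y0 n y) (h1 : s ≤ y) (h2 : y ≤ t)
    (k : v'.1 - v.1 ≤ S F.w n al s t) : F.Win z 0 n σ s t v v' := win_of ls fun B hB _ => by
  rw [subset_empty.1 (h ▸ hB : B ⊆ ∅)]
  refine ⟨0, by simp, fun η => ⟨?_, .inl ⟨y, h1, h2, Y.1, Y.2.1, Y.2.2, by simp [InV]⟩⟩⟩
  have e : ssum F.w ∅ η s t al n = S F.w n al s t := by
    rw [ssum_eq]; simp only [asum, filter_empty, sum_empty, add_zero]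
    exact sum_congr (filter_congr fun c _ => by simp [InV]) fun _ _ => rfl
  have : 0 ≤ asum (σ \ ∅) ∅ η s t fun _ => 1 / 4 := sum_nonneg fun _ _ => by norm_num
  rw [Fm.Ev, e, ls]
  simp only [dp, InV, notMem_empty, false_imp_iff, implies_true, if_true, asum, filter_empty, sum_empty] at this ⊢
  linarith

theorem vQ_le {k : ℝ} (h : 0 ≤ k) : vQ Q ≤ (((13 - Q) / 4 : ℝ), k) := ⟨by simp only [vQ]; linarith, h⟩

/-- a slice in a definite window becomes a wall of the right side -/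
theorem Gd.sig {σ : Finset Wl} {c U U' : ℤ} (h : Gd P F n z x y b vL Q K g σ) (H : Fr P F n z x y b)
    (cw : Cw F y' y z) (h1 : x ≤ y') (fz : Fz F y' y) (ht : ∀ τ ∈ ts, τ.OK F.w ∧ y' < τ.x ∧ τ.y < y)
    (B : Sc1 F (acts F.w ts n) x y s v (vQ Q) c U) (lo : y' < s) (df : Df F.w y' s)
    (e1 : S F.w (acts F.w ts n) lp y' s = 0) (e2 : S F.w (acts F.w ts n) uu y' s = U')
    (e3 : 0 ≤ S F.w (acts F.w ts n) psi y' s) (e4 : 0 ≤ S F.w (acts F.w ts n) psi s y) (c0 : 0 ≤ c)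
    (q1 : Q' = Q + 2 * (U' + U) + 1) (q2 : -3 ≤ Q + 2 * U) (q3 : Q + 2 * U ≤ 9) (q4 : Q + 2 * U - 4 * c ≤ 8)
    (hg : ∀ j, j ≤ y → cnt g K j = K) :
    Gd P F n z x y' b vL Q' (K + 1) (gs y g) (σ ∪ {⟨.sS s, ts⟩}) := by
  have yz := H.yb.trans H.bz
  have a1 : S F.w (acts F.w ts n) al y' s = U' / 2 := by rw [S_al, e1, e2]; ring
  have a2 : S F.w (acts F.w ts n) al s y = U / 2 := by rw [S_al, B.elp, B.euu]; ring
  have r1 : (Q' : ℝ) = Q + 2 * (U' + U) + 1 := by exact_mod_cast q1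
  have r2 : (-3 : ℝ) ≤ Q + 2 * U := by exact_mod_cast q2
  have r3 : (Q : ℝ) + 2 * U ≤ 9 := by exact_mod_cast q3
  have r4 : (Q : ℝ) + 2 * U - 4 * c ≤ 8 := by exact_mod_cast q4
  have r5 : (0 : ℝ) ≤ c := by exact_mod_cast c0
  have hi := B.hi
  refine h.right H ((inn_one (a := ⟨.sS s, ts⟩) H.ls fz ht ⟨B.ok, lo, B.hi, .inl rfl⟩).mono h1 le_rfl) h1 cw.lt.le
    (by simpa [Bs.pin, Bs.arc, Bs.lo] using lo) (fun τ k => (ht τ k).2.1)
    (fun σ' k => win_two (a := .sS s) (e := .sS s) H.ls (by simp [k]) (fun η => pd_0 (m := 1) cw yz (df.trans B.df)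
      (by simp [k]) ?_ ?_) (fun _ _ => ?_) (fun _ _ => ?_) fun _ _ q => (q rfl).elim) ?_ rfl
    (fun j k => by rw [cnt_gs, if_neg k.not_gt, add_zero]) fun j k => ?_
  · rw [S_cut lo.le hi.le, a1, a2]; simp only [vQ]; linarith
  · rw [S_cut lo.le hi.le]; simp only [vQ]; linarith
  iterate 2
    refine ⟨c, B.hc, fun _ η => ?_⟩
    cases e : η (.sS s)
    · exact pd_l cw yz lo hi df e (by rw [a1]; simp only [vQ]; linarith) (by simp only [vQ]; linarith)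
    · exact pd_r cw yz lo hi B.df e (Tw1.rgt B) B.r2
  · rw [S_cut lo.le hi.le, a1, a2, card_singleton]; push_cast; linarith
  · obtain rfl : j = s := by simpa using k
    rw [a2, cnt_gs, if_pos hi, hg _ hi.le]
    exact ⟨by linarith, by linarith, by simp, rfl⟩

end Crest.Agent.X212.Nm96
end
end

-- ▼ part X212/Nm96/Pf
section

/-!
# Row 212, `p = 1` (helper96), part f: one turn
-/

set_option autoImplicit false
noncomputable section

namespace Crest.Agent.X212.Nm96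

open Crest.Agent.X212.Rod53 Crest.Agent.X212.Wd38 Finset Cn

variable {Γ : Nm} {P : Pm Γ} {T : WTh Γ} {X : Fx Γ} {F : Fm Γ} {n : Wt} {κ : Γ.ι} {u g : ℕ → ℤ} {x y Q : ℤ}
  {q i tL tR l d K : ℕ} {c : Cn}

/-- the abelian reserve on the left -/
def kap (i : ℕ) : ℤ := if i ≤ 2 then 3 else 5

/-- the steering -/
structure Num (q i tL tR l : ℕ) (Q : ℤ) : Prop where
  i1 : 1 ≤ i ∧ i ≤ q ∧ tL ≤ q ∧ tR < i
  hq : -2 ≤ Q ∧ Q ≤ 5
  hp : -2 ≤ Q + 2 * (i - 1) - 8 * tR ∧ Q + 2 * (i - 1) - 8 * tR ≤ 7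
  p2 : 2 ≤ i → 0 ≤ Q + 2 * (i - 1) - 8 * tR
  q' : -2 ≤ Q + 2 * (i - 1) - 8 * tR + 1 + 2 * q - 8 * tL ∧ Q + 2 * (i - 1) - 8 * tR + 1 + 2 * q - 8 * tL ≤ 5
  hl : min (q - 1) tL + l = tL ∧ (l = 0 ∨ l = 1 ∧ q = 1)

theorem num (h1 : 1 ≤ i) (h2 : i ≤ q) (h : -2 ≤ Q ∧ Q ≤ 5) : ∃ tL tR l, Num q i tL tR l Q := by
  obtain ⟨tR, a⟩ : ∃ tR : ℕ, tR < i ∧ -2 ≤ Q + 2 * (i - 1) - 8 * tR ∧ Q + 2 * (i - 1) - 8 * tR ≤ 7 ∧
      (2 ≤ i → 0 ≤ Q + 2 * (i - 1) - 8 * tR) := by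
    by_cases e : i = 1
    exacts [⟨0, by omega⟩, ⟨((Q + 2 * (i - 1)) / 8).toNat, by omega⟩]
  obtain ⟨tL, b⟩ : ∃ tL : ℕ, (tL : ℤ) = (Q + 2 * (i - 1) - 8 * tR + 3 + 2 * q) / 8 :=
    ⟨_, Int.toNat_of_nonneg (by omega)⟩
  exact ⟨tL, tR, tL - min (q - 1) tL, by omega, h, by omega, a.2.2.2, by omega, by omega⟩

theorem mu_val (h : Num q i tL tR l Q) : mu q i tL tR 0 = q - i ∧ mu q i tL tR 1 = 1 ∧
    mu q i tL tR (q + i + 2) = q - i ∧ mu q i tL tR 2 = q - i + 1 + 2 * (tL + tR) ∧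
    mu q i tL tR (q + 2) = q - i + 1 + 2 * tR ∧ mu q i tL tR (q + i + 1) = q - i + 1 ∧
    mu q i tL tR (q + 1) = q - i + 1 + 2 * tR + 2 * l := by
  have := h.i1
  have := h.hl
  refine ⟨rfl, ?_, if_pos (.inr rfl), ?_, ?_, ?_, ?_⟩ <;> rw [mu, if_neg (by omega)]
  · rfl
  all_goals rw [if_neg (by omega)]; omega

theorem tq_of (h : St P T κ X (-(i : ℤ), 1) (q - i) (kap i) F n x y Q K g d c) (N : Num q i tL tR l Q)
    (gap : ∀ k, u k + 8 ≤ u (k + 1)) (u0 : u 0 = x) (uN : u (q + i + 2 + 1) = y + 1) :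
    Tq F.w n κ u (VT q i) (mu q i tL tR) (q + i + 2) := by
  have := cut_lt h.fr.ok h.cy
  have := N.i1
  refine ⟨strictMono_nat_of_lt_succ fun k => by have := gap k; omega, u0 ▸ h.fr.lo, by omega, by omega,
    by rw [u0, uN, add_sub_cancel_right]; exact h.rd, fun k hk => ?_, ?_, (mu_val N).2.2.1⟩
  · rcases k with _ | _ | k
    · exact .inr (by simp [VT, dt])
    · exact .inl (by simp [VT, dt])
    · exact (vv3 (ht_mu (tL := tL) (tR := tR) (by omega) (by omega)).v k).1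
  · rw [VT, if_neg (by omega), if_neg (by omega)]; simp [VT]

/-- the situation after the turn -/
structure Af (P : Pm Γ) (T : WTh Γ) (κ : Γ.ι) (X : Fx Γ) (q i tL tR l : ℕ) (F : Fm Γ) (n : Wt) (u : ℕ → ℤ)
    (x y Q : ℤ) (K : ℕ) (g : ℕ → ℤ) (d : ℕ) (c : Cn) (ts : List Tw) : Prop where
  num : Num q i tL tR l Q
  gap : ∀ k, u k + 8 ≤ u (k + 1)
  u0 : u 0 = x
  uN : u (q + i + 2 + 1) = y + 1
  fr : Fr P F n X.z x y X.b
  cx : F.Cut x
  cy : F.Cut y
  fz : ∀ a ∈ F.fz, a.lo ≤ x ∨ y ≤ a.lo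
  am : Am X F n y K g c
  cc : Cc P F n X.z x y X.b ((13 - Q) / 4, kap i) Q K g d c
  pt : Pt F.w n κ u (VT q i) (mu q i tL tR) (q + i + 2)
  pt' : Pt F.w (acts F.w ts n) κ u (VT q i) (sh (q + i - 1) (mu q i tL tR)) (q + i + 2)
  ht' : Ht (VT q i) (sh (q + i - 1) (mu q i tL tR)) (q + i + 2) 1 3 (q + 2)
  tw : ∀ τ ∈ ts, τ.OK F.w ∧ u 3 ≤ τ.x ∧ τ.y < u (q + i + 2)
  ne : ts ≠ []

namespace Af

variable {ts : List Tw} (A : Af P T κ X q i tL tR l F n u x y Q K g d c ts)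
include A

theorem ht : Ht (VT q i) (mu q i tL tR) (q + i + 2) 1 (q + i + 2) (q + 2) := ht_mu A.num.i1.2.2.1 A.num.i1.2.2.2

theorem pos : x + 8 ≤ u 1 ∧ u 1 + 8 ≤ u 2 ∧ u 2 + 8 ≤ u 3 ∧ u 3 ≤ u (q + 2) ∧ u (q + 2) ≤ u (q + i + 1) ∧
    u (q + 2) + 8 ≤ u (q + 2 + 1) ∧ u 3 + 8 ≤ u (3 + 1) ∧ u (q + i + 1) + 8 ≤ u (q + i + 2) ∧
    u (q + i + 2) + 7 ≤ y ∧ u (0 + 1) = u 1 ∧ u (1 + 1) = u 2 ∧ u (2 + 1) = u 3 ∧
    u (q + i + 1 + 1) = u (q + i + 2) ∧ u 0 = x ∧ u (q + i + 2 + 1) = y + 1 := by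
  have := A.num.i1
  have := A.gap (q + i + 2)
  exact ⟨A.u0 ▸ A.gap 0, A.gap 1, A.gap 2, A.pt.mono.monotone (by omega), A.pt.mono.monotone (by omega), A.gap _,
    A.gap _, A.gap _, by have := A.uN; omega, rfl, rfl, rfl, rfl, A.u0, A.uN⟩

theorem mu' : sh (q + i - 1) (mu q i tL tR) 0 = q - i ∧ sh (q + i - 1) (mu q i tL tR) 1 = 1 ∧
    sh (q + i - 1) (mu q i tL tR) (q + i + 2) = q - i ∧
    sh (q + i - 1) (mu q i tL tR) 2 = q - i + 1 + 2 * (tL + tR) ∧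
    sh (q + i - 1) (mu q i tL tR) (q + 2) = q - i + 2 * tR + 2 * l := by
  obtain ⟨a, b, c, d, -, -, e⟩ := mu_val A.num
  have := A.num.i1
  refine ⟨(if_neg (by omega)).trans a, (if_neg (by omega)).trans b, (if_neg (by omega)).trans c,
    (if_neg (by omega)).trans d, (if_pos (by omega)).trans ?_⟩
  rw [show q + 2 - 1 = q + 1 from rfl, e]; ring

theorem okS : (Bs.sS (u (q + 2) + 4)).OK F.w := by
  have := A.pos
  have := A.num.i1
  exact A.pt.okS (k0 := q + 2) (by omega) (by omega) (by omega) (by rw [A.ht.v _ (by omega)]; simp)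

/-- the slice -/
theorem sc : Sc1 F n x y (u (q + 2) + 4) ((13 - Q) / 4, kap i) (vQ Q) 0 (i - 1 - 4 * tR) ∧
    0 ≤ S F.w n psi (u (q + 2) + 4) y := by
  have := A.pos
  obtain ⟨h1, h2, h3, h4, -, -⟩ := A.num
  obtain ⟨-, -, m2, -, m3, -⟩ := mu_val A.num
  obtain ⟨a, b, c, e⟩ := A.ht.S A.pt (k0 := q + 2) (k1 := q + i + 2) (x := u (q + 2) + 4) (y := y) (by omega)
    (by omega) le_rfl (by omega) (by omega) (by omega) (by omega)
  rw [m2, m3, sx, if_pos (by omega)] at b c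
  have p : 0 ≤ S F.w n psi (u (q + 2) + 4) y := by rw [c]; exact Int.cast_nonneg (by omega)
  refine ⟨⟨A.okS, by omega, by omega, by simp, e, a, b.trans (congrArg _ (by omega)), ?_, ?_, ?_, ?_⟩, p⟩
  · have : ((1 + 2 * (i - 1 - 4 * tR) : ℤ) : ℝ) ≤ (13 - Q : ℤ) := Int.cast_le.2 (by omega)
    push_cast at *; linarith
  · have : 5 + (i - 1 - 4 * tR) - 2 * 0 - 3 * ((1 - (i - 1 - 4 * tR)) % 4) ≤ 2 * kap i := by
      unfold kap; split_ifs <;> omega
    exact (Int.cast_le.2 this).trans_eq (by push_cast; rfl)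
  · have : ((9 - Q : ℤ) : ℝ) ≤ (2 * (i - 1 - 4 * tR) + 13 : ℤ) := Int.cast_le.2 (by omega)
    simp only [vQ]; push_cast at *; linarith
  · simp only [vQ]; push_cast; linarith

/-- the twisted slice -/
theorem sc' : Sc1 F (acts F.w ts n) x y (u (q + 2) + 4) ((13 - Q) / 4, kap i) (vQ Q) (1 - l) (i - 4 * tR - 4 * l) ∧
    0 ≤ S F.w (acts F.w ts n) psi (u (q + 2) + 4) y := by
  have := A.pos
  obtain ⟨h1, h2, h3, h4, h5, h6⟩ := A.num
  obtain ⟨-, -, m2, -, m3⟩ := A.mu'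
  obtain ⟨a, b, c, e⟩ := A.ht'.S A.pt' (k0 := q + 2) (k1 := q + i + 2) (x := u (q + 2) + 4) (y := y) (by omega)
    (by omega) le_rfl (by omega) (by omega) (by omega) (by omega)
  rw [m2, m3, sx, if_neg (by omega)] at b c
  have p : 0 ≤ S F.w (acts F.w ts n) psi (u (q + 2) + 4) y := by rw [c]; exact Int.cast_nonneg (by omega)
  refine ⟨⟨A.okS, by omega, by omega, by rw [abs_le]; omega, e, a, b.trans (congrArg _ (by omega)), ?_, ?_, ?_, ?_⟩, p⟩
  · have : ((1 + 2 * (i - 4 * tR - 4 * l) - 4 * (1 - l) : ℤ) : ℝ) ≤ (13 - Q : ℤ) := Int.cast_le.2 (by omega)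
    push_cast at *; linarith
  · have : 5 + (i - 4 * tR - 4 * l) - 2 * (1 - l) - 3 * ((1 - (i - 4 * tR - 4 * l)) % 4) ≤ 2 * kap i := by
      unfold kap; split_ifs <;> omega
    exact (Int.cast_le.2 this).trans_eq (by push_cast; rfl)
  · have : ((9 - Q : ℤ) : ℝ) ≤ (2 * (i - 4 * tR - 4 * l) + 13 - 4 * (1 - l) : ℤ) := Int.cast_le.2 (by omega)
    simp only [vQ]; push_cast at *; linarith
  · simp only [vQ]; push_cast; linarith [Nat.cast_nonneg (α := ℝ) l]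

omit A in
theorem le : vQ Q ≤ (((13 - Q) / 4 : ℝ), (kap i : ℝ)) := vQ_le (by unfold kap; split_ifs <;> norm_num)

theorem tw1 : Tw1 F n X.z x y ((13 - Q) / 4, kap i) (vQ Q) ∧
    Tw1 F (acts F.w ts n) X.z x y ((13 - Q) / 4, kap i) (vQ Q) := by
  have := A.pos
  have := A.num.i1
  obtain ⟨m0, m1, m2, -⟩ := mu_val A.num
  obtain ⟨m0', m1', m2', -⟩ := A.mu'
  obtain ⟨a, b⟩ := A.ht.s0 A.pt m1 (k := q + i + 2) (x := x) (y := y) (by omega) le_rfl (by omega) (by omega)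
    (by omega) (by omega)
  obtain ⟨a', b'⟩ := A.ht'.s0 A.pt' m1' (k := q + i + 2) (x := x) (y := y) (by omega) le_rfl (by omega) (by omega)
    (by omega) (by omega)
  rw [m0, m2, sx, if_pos (by omega)] at b
  rw [m0', m2', sx, if_pos (by omega)] at b'
  have cw := A.fr.cw A.cx A.cy A.fr.xy le_rfl
  have yz := A.fr.yb.trans A.fr.bz
  exact ⟨⟨cw, yz, a, b.trans (by push_cast; ring), Af.le⟩, cw, yz, a', b'.trans (by push_cast; ring), Af.le⟩

/-- the arc `d2` -/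
theorem d2 {t : ℤ} (h : u (q + i + 1) + 2 < t) : Ar F n x t (x + 2) (u (q + i + 1) + 2) := by
  have := A.pos
  have := A.num.i1
  obtain ⟨m0, m1, -, -, -, m2, -⟩ := mu_val A.num
  obtain ⟨a, b⟩ := A.ht.s0 A.pt m1 (k := q + i + 1) (x := x + 2) (y := u (q + i + 1) + 2) (by omega) (by omega)
    (by omega) (by omega) (by omega) (by omega)
  have e : VT q i (q + i + 1) = (-(i : ℤ) + 1, 1) := by rw [A.ht.v _ (by omega)]; congr 1; push_cast; ring
  refine ⟨A.pt.okA (k0 := 0) (k1 := q + i + 1) (by omega) (by omega) (by omega) (by omega) (by omega) (by omega)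
    (by omega) (by rw [e]; exact .inr (by simp [VT, dt])), by omega, h, ?_⟩
  rw [In1, a, b, A.pt.vv (k0 := 0) (k1 := q + i + 1) (by omega) (by omega) (by omega) (by omega) (by omega) (by omega),
    A.pt.vv (k0 := 0) (k1 := q + i + 1) (by omega) (by omega) (by omega) (by omega) (by omega) (by omega), e, m0, m2,
    sx, if_neg (by omega), show VT q i 0 = (-(i : ℤ), 1) from rfl, (v_p _ _ _).1, (v_p _ _ _).2]
  push_cast
  exact ⟨by ring, by ring⟩

theorem d1 : Ar F n x y (u 1 + 1) (u (q + i + 2) + 1) ∧ Ar F (acts F.w ts n) x y (u 1 + 1) (u (q + i + 2) + 1) ∧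
    Ar F (acts F.w ts n) x y (u 1 + 2) (u 3 + 1) := by
  have := A.pos
  have := A.num.i1
  exact ⟨A.ht.ar A.pt (mu_val A.num).2.1 (k := q + i + 2) (by omega) le_rfl (by omega) (by omega) (by omega)
    (by omega) (if_pos (by omega)) (by omega) (by omega), A.ht'.ar A.pt' A.mu'.2.1 (k := q + i + 2) (by omega) le_rfl
    (by omega) (by omega) (by omega) (by omega) (if_pos (by omega)) (by omega) (by omega),
    A.ht'.ar A.pt' A.mu'.2.1 (k := 3) (by omega) (by omega) (by omega) (by omega) (by omega) (by omega) rfl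
    (by omega) (by omega)⟩

theorem fz' : Fz F x y := fz_of A.fr.ok A.fz

theorem tw' : ∀ τ ∈ ts, τ.OK F.w ∧ x < τ.x ∧ τ.y < y := fun τ k => by
  have := A.pos; have := A.tw τ k; exact ⟨this.1, by omega, by omega⟩

theorem jo : F.Jo P c (Bs.sA (x + 2) (u (q + i + 1) + 2)) ∧ F.Jo P c (Bs.sA (u 1 + 1) (u (q + i + 2) + 1)) ∧
    F.Jo P c (Bs.sS (u (q + 2) + 4)) ∧ F.Jo P c ⟨.sA (u 1 + 2) (u 3 + 1), ts⟩ ∧
    F.Jo P c ⟨.sS (u (q + 2) + 4), ts⟩ := by
  have := A.pos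
  obtain ⟨t1, t2⟩ := A.tw1
  have d2 := A.d2 (t := y) (by omega)
  have one := fun a (h : Wa F x y [] a) => inn_one A.fr.ls A.fz' (by simp) h
  exact ⟨A.cc.jo A.fr (Tw1.fi1 (ts := []) t1 (one _ d2.wa) trivial (t1.a d2)) trivial,
    A.cc.jo A.fr (Tw1.fi1 (ts := []) t1 (one _ A.d1.1.wa) trivial (t1.a A.d1.1)) trivial,
    A.cc.jo A.fr (Tw1.fi1 (ts := []) t1 (one _ A.sc.1.wa) trivial (t1.sl A.sc.1)) trivial,
    A.cc.jo A.fr (t2.fi1 (inn_one A.fr.ls A.fz' A.tw' A.d1.2.2.wa) trivial (t2.a A.d1.2.2)) trivial,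
    A.cc.jo A.fr (t2.fi1 (inn_one A.fr.ls A.fz' A.tw' A.sc'.1.wa) trivial (t2.sl A.sc'.1)) trivial⟩

/-- the two branches -/
theorem br (H : Ax0 P T) :
    T.Z F (d + 1) (J (Bs.sA (x + 2) (u (q + i + 1) + 2)) (Bs.sA (u 1 + 1) (u (q + i + 2) + 1)) c) =
      T.Z F (d + 1) (J (Bs.sA (x + 2) (u (q + i + 1) + 2)) (Bs.sS (u (q + 2) + 4)) c) +
      T.Z F (d + 1) (J (Bs.sS (u (q + 2) + 4)) ⟨.sS (u (q + 2) + 4), ts⟩ c) := by
  have := A.pos
  obtain ⟨j1, j2, j3, j4, j5⟩ := A.jo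
  obtain ⟨-, t2⟩ := A.tw1
  obtain ⟨-, a1, a2⟩ := A.d1
  rw [A.cc.split A.fr H j1 j4 j2, A.cc.two A.fr H j4 j2 (fun e => A.ne (congrArg Wl.tw e)) (t2.fi2
      (inn_two A.fr.ls A.fz' A.tw' a2.wa ⟨a1.ok, a1.lo, a1.hi, .inr ⟨rfl, fun τ k => .inr (.inr ⟨trivial, by
        have := A.tw τ k; change u 1 + 1 < _; omega, by have := A.tw τ k; change _ < u _ + 1; omega⟩)⟩⟩
        (.inr (.inr (.inr (.inr ⟨trivial, by change u 1 + 1 < u 1 + 2; omega,
          by change u 3 + 1 < u _ + 1; omega, trivial⟩))))) trivial trivial (t2.a a2) (t2.a a1)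
      (t2.aa a2 a1 (by omega) (by omega))), add_zero, A.cc.split A.fr H j1 j5 j4, J_comm _ (⟨.sA _ _, ts⟩ : Wl),
    A.cc.two A.fr H j4 j5 nofun (t2.fi2 (inn_two A.fr.ls A.fz' A.tw' a2.wa A.sc'.1.wa
      (.inr (.inl (by change u 3 + 1 < u _ + 4; omega)))) trivial trivial (t2.a a2) (t2.sl A.sc'.1)
      (t2.as A.sc'.1 a2 (by omega))), add_zero, A.cc.split A.fr H j1 j3 j5]

/-- the end of the descent -/
theorem one (H : Ax0 P T) (e : i = 1) :
    T.Z F (d + 1) (J (Bs.sA (x + 2) (u (q + i + 1) + 2)) (Bs.sS (u (q + 2) + 4)) c) = 0 := by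
  subst e
  have := A.pos
  have e : u (q + 1 + 1) = u (q + 2) := rfl
  obtain ⟨t1, -⟩ := A.tw1
  have d2 := A.d2 (t := y) (by omega)
  exact A.cc.two A.fr H A.jo.1 A.jo.2.2.1 nofun (Tw1.fi2 (ts := []) t1 (inn_two A.fr.ls A.fz' (by simp) d2.wa
    A.sc.1.wa (.inr (.inl (by change u _ + 2 < u _ + 4; omega)))) trivial trivial (t1.a d2) (t1.sl A.sc.1)
    (t1.as A.sc.1 d2 (by omega)))

end Af

theorem rs_mu {w : Shp Γ} (N : Num q i tL tR l Q) (tq : Tq w n κ u (VT q i) (mu q i tL tR) (q + i + 2)) (ok : w.OK)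
    (fz : Finset Bs) (gap : ∀ k, u k + 8 ≤ u (k + 1)) (u0 : u 0 = x) (uN : u (q + i + 2 + 1) = y + 1) :
    Fm.RS ⟨pw w κ u (VT q i) (q + i + 2), fz, ∅⟩ (pn u (mu q i tL tR) (q + i + 2) n) (x + 1) (y - 1)
      (.sA (x + 2) (u (q + i + 1) + 2)) (.sA (u 1 + 1) (u (q + i + 2) + 1)) := by
  have i1 := N.i1
  have ht := ht_mu (q := q) i1.2.2.1 i1.2.2.2
  have m1 := (mu_val N).2.1
  have g0 : u 0 + 8 ≤ u 1 := gap 0
  have g1 := gap (q + i + 2)
  have g2 : u 1 + 8 ≤ u (1 + 1) := gap 1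
  have g3 : u (q + i + 1) + 8 ≤ u (q + i + 2) := gap _
  have g4 : u (0 + 1) = u 1 := rfl
  refine tq.rs (by omega) (by omega) (by omega) (by omega) ok fz rfl
    (fun k : Fin (q + i) => cl 1 (k + 2)) ⟨q + i - 1, by omega⟩ (fun k => ⟨rfl, if_neg (by omega)⟩) (fun a b => ?_)
    (fun a => ?_) (k0 := 0) (k1 := q + i + 1) (k0' := 1) (k1' := q + i + 2) (b := 1) (b' := 0) (by omega) (by omega)
    (by omega) (by omega) (by omega) (by omega) (by omega) (by omega) (fun k a b => ?_) (fun k a b => ?_) (by decide)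
  · rw [ht.pr _ (by omega) (by omega)]
    simp only [cl, Fin.ext_iff]
    split_ifs <;> first | omega | simp
  · rw [ht.pr _ (by omega) (by omega), m1]
    have := ht.h (a + 2) (by omega) (by omega)
    simp only [Fin.ext_iff]
    split_ifs at this ⊢ <;> first | omega | (rw [this]; simp) | (rcases this with e | e <;> rw [e] <;> norm_num)
  · rcases (show k = 0 ∨ k = q + i + 1 ∨ k = q + i + 2 by omega) with rfl | rfl | rfl
    · simp [cl, Wd38.dt_self]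
    · rw [ht.v (q + i + 1) (by omega), cl, if_pos (by simp only; omega)]; simp [VT, dt]; ring
    · rw [tq.vN, cl, if_neg (by simp only; omega)]; simp [Wd38.dt_self]
  · rw [cl, if_neg (by simp only; omega)]; simp

/-- **the turn** -/
theorem turn1 (H : Ax0 P T) (h : St P T κ X (-(i : ℤ), 1) (q - i) (kap i) F n x y Q K g d c) (N : Num q i tL tR l Q)
    (gap : ∀ k, u k + 8 ≤ u (k + 1)) (u0 : u 0 = x) (uN : u (q + i + 2 + 1) = y + 1) :
    ∃ F n c ts, Af P T κ X q i tL tR l F n u x y Q K g d c ts ∧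
      T.Z F (d + 1) (J (Bs.sA (x + 2) (u (q + i + 1) + 2)) (Bs.sA (u 1 + 1) (u (q + i + 2) + 1)) c) ≠ 0 := by
  have tq := tq_of h N gap u0 uN
  have i1 := N.i1
  have ht := ht_mu (q := q) i1.2.2.1 i1.2.2.2
  obtain ⟨m0, m1, m2, -, -, m3, -⟩ := mu_val N
  have g0 : u 0 + 8 ≤ u 1 := gap 0
  have g1 := gap (q + i + 2)
  have g2 := tq.mono.monotone tq.pos
  have ag := (pw_ag (w := F.w) (κ := κ) (u := u) (V := VT q i) (m := mu q i tL tR) (N := q + i + 2) n).mono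
    (s' := fun j => j ≤ x + 1 ∨ y - 1 ≤ j) fun j k => by omega
  have ok := tq.ok h.fr.ok.w h.fr.lok.ok
  have H' := h.fr.tr ok.1 ok.2 (p1_pw h.fr.p1 fun k => by unfold VT; split_ifs <;> simp) rfl rfl
    (fun j k => (ag j (by omega)).1) rfl rfl
  obtain ⟨j, hj⟩ : ∃ j, q + i = j + 2 := ⟨q + i - 2, by omega⟩
  have A : Af P T κ X q i tL tR l { F with w := pw F.w κ u (VT q i) (q + i + 2) }
      (pn u (mu q i tL tR) (q + i + 2) n) u x y Q K g d (c.mp (pn u (mu q i tL tR) (q + i + 2)) id ∅)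
      (tl u (VT q i) (q + i - 1)) :=
    ⟨N, gap, u0, uN, H', ⟨h.cx.1, (ag x (by omega)).1 ▸ h.cx.2⟩, ⟨h.cy.1, (ag y (by omega)).1 ▸ h.cy.2⟩, h.fz,
      h.am.tr h.fr.yb rfl (ag.mono fun j k => by omega) Subset.rfl (fun _ => .inl) le_rfl
        (fun _ _ _ => by omega) fun a k => .inl (walls_mp _ a k),
      h.cc.tr h.fr _ h.fr.ls rfl rfl (ag.mono fun j k => by omega) Subset.rfl fun _ => .inl, tq.pt,
      tl_acts ht.v (by omega) tq.pt (by
        rw [show q + i - 1 + 2 = q + i + 1 by omega, show q + i - 1 + 3 = q + i + 2 by omega, m2, m3]),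
      by rw [hj] at ht ⊢; exact ht.sh, fun τ k' => by
        obtain ⟨k, hk, rfl⟩ := tl_mem k'
        exact ⟨tq.pt.twk_ok (by omega) (vv3 ht.v k).1 (vv3 ht.v k).2, tq.mono.monotone (by omega),
          Int.sub_one_lt_iff.2 (tq.mono.monotone (by omega))⟩, by rw [hj]; exact List.cons_ne_nil _ _⟩
  refine ⟨_, _, _, _, A, ?_⟩
  have ps := A.pos
  have cw := h.fr.cw h.cx h.cy h.fr.xy le_rfl
  have yz := h.fr.yb.trans h.fr.bz
  have sur := tq.sur (x := x + 1) (y := y - 1) (by omega) (by omega) (by omega) (by omega)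
  have r0 := h.rd (x + 1) (by omega) (by omega)
  have r1 := h.rd (y - 1) (by omega) (by omega)
  have R : ∀ {w n}, w.Rg (x + 1) (y - 1) → Pr (w.s (x + 1)).r.2 → w.s (x + 1) = .rod (κ, (-(i : ℤ), 1)) →
      w.s (y - 1) = .rod (κ, (-(i : ℤ), 1)) → n.nl (y - 1) = n.nr (x + 1) →
      (Bs.rA (x + 1) (y - 1)).OK w ∧ (Bs.rA (x + 1) (y - 1)).OKn w n := fun a p b c e =>
    ⟨⟨a, .inl (by rw [b, c]; rfl)⟩, fun _ => e, fun k => (Pr.ne_neg p (by rw [b, c] at *; exact k)).elim⟩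
  have pr := (h.fr.ok.w.pr (x + 1) sur.rg'.lo (sur.rg'.lt.le.trans sur.rg'.hi)).2
  obtain ⟨o1, o2⟩ := R (n := n) sur.rg' pr r0.1 r1.1 (r1.2.1.trans r0.2.2.symm)
  obtain ⟨a1, a2, a3⟩ := ag (x + 1) (.inl le_rfl)
  obtain ⟨b1, b2, b3⟩ := ag (y - 1) (.inr le_rfl)
  obtain ⟨o3, o4⟩ := R sur.rg (a1 ▸ pr) (a1.trans r0.1) (b1.trans r1.1)
    (b2.trans (r1.2.1.trans (r0.2.2.symm.trans a3.symm)))
  rw [h.cc.rf h.fr H A.cc H' sur (by omega) (by omega) (fun j a b => by rw [r0.1]; exact (h.rd j (by omega) (by omega)).1)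
    (pn_chg (by omega) (by omega)) (h.fr.ls ▸ rs_mu N tq h.fr.ok.w F.fz gap u0 uN)
    (fi_ft cw yz (ft_rd h.rd) Af.le) ⟨[], inn_one h.fr.ls (fz_of h.fr.ok h.fz) (by simp)
      ⟨o1, by change x < x + 1; omega, by change y - 1 < y; omega, .inl rfl⟩, by simpa [acts] using o2,
      fun σ k => win_ft cw yz (ft_rd h.rd) Af.le (by simp [k, Bs.pin])⟩
    (A.tw1.1.fiR A.fz' (A.d2 (by omega)) o3 o4 (by omega) (by omega) (by omega) (by omega))
    (A.tw1.1.fiR A.fz' A.d1.1 o3 o4 (by omega) (by omega) (by omega) (by omega)) A.jo.1 A.jo.2.1]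
  exact h.ne

end Crest.Agent.X212.Nm96
end
end

-- ▼ part X212/Nm96/Pg
section

/-!
# Row 212, `p = 1` (helper96), part g: the two branches, the junctions
-/

set_option autoImplicit false
noncomputable section

namespace Crest.Agent.X212.Nm96

open Crest.Agent.X212.Rod53 Crest.Agent.X212.Wd38 Finset Cn

variable {Γ : Nm} {P : Pm Γ} {T : WTh Γ} {X : Fx Γ} {F : Fm Γ} {n : Wt} {κ : Γ.ι} {u g : ℕ → ℤ} {x y s t Q : ℤ}
  {q i tL tR l d K : ℕ} {c : Cn} {ts : List Tw} {v v' : ℝ × ℝ}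

theorem Ar.fz {x' y' : ℤ} (A : Ar F n s t x' y') (fz : Finset Bs) : Ar { F with fz := fz } n s t x' y' :=
  ⟨A.ok, A.lo, A.hi, A.i⟩

theorem Sc1.fz {c U : ℤ} (A : Sc1 F n s t x v v' c U) (fz : Finset Bs) : Sc1 { F with fz := fz } n s t x v v' c U :=
  { A with }

theorem kap_le : (0 : ℝ) ≤ kap i ∧ (kap i : ℝ) ≤ kap (i + 1) ∧ (kap i : ℝ) ≤ 5 := by
  unfold kap; split_ifs <;> norm_num; omega

namespace Af

variable (H : Ax0 P T)
include H

/-- a letter on the left -/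
theorem hl (A : Af P T κ X q (i + 1) tL tR l F n u x y Q K g d c ts) (h1 : 1 ≤ i)
    (ne : T.Z F (d + 1) (J (Bs.sA (x + 2) (u (q + (i + 1) + 1) + 2)) (Bs.sS (u (q + 2) + 4)) c) ≠ 0) :
    ∃ F c, St P T κ X (-(i : ℤ), 1) (q - i) (kap i) F n (u (q + (i + 1) + 1) + 3) (u (q + (i + 1) + 2) - 1) Q K g
      (d + 1) c := by
  have ps := A.pos
  obtain ⟨n1, n2, n3, n4, -, -⟩ := A.num
  obtain ⟨m0, m1, m2, -, m3, m4, -⟩ := mu_val A.num
  have g1 : u (q + 2 + 1) ≤ u (q + (i + 1) + 1) := A.pt.mono.monotone (by omega)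
  have ev : VT q (i + 1) (q + (i + 1) + 1) = (-(i : ℤ), 1) := by
    rw [A.ht.v _ (by omega)]; congr 1; push_cast; ring
  have rd := A.pt.rd (q + (i + 1) + 1) (by omega)
  rw [ev, m4, show (q : ℤ) - (i + 1 : ℕ) + 1 = q - i by push_cast; ring] at rd
  set x' := u (q + (i + 1) + 1) + 3 with hx
  set y' := u (q + (i + 1) + 2) - 1 with hy
  have sub : F.fz ⊆ insert (.yS x') (insert (.yS y') F.fz) := (subset_insert _ _).trans (subset_insert _ _)
  have H' := A.fr.frz sub (by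
    simp only [mem_insert, forall_eq_or_imp]
    exact ⟨.inr ⟨_, rfl, by omega, by omega⟩, .inr ⟨_, rfl, by omega, by omega⟩, fun _ => .inl⟩)
  have C' := A.cc.frz A.fr sub (by
    simp only [mem_insert, forall_eq_or_imp, Bs.lo, Bs.hi]
    exact ⟨.inr (by omega), .inr (by omega), fun _ => .inl⟩)
  set F' : Fm Γ := { F with fz := insert (.yS x') (insert (.yS y') F.fz) } with hF
  have cx : F'.Cut x := ⟨sub A.cx.1, A.cx.2⟩
  have cy : F'.Cut y := ⟨sub A.cy.1, A.cy.2⟩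
  have cx' : F'.Cut x' := ⟨by simp [hF], by rw [(rd x' (by omega) (by omega)).1]; exact one_ne_zero⟩
  have cy' : F'.Cut y' := ⟨by simp [hF], by rw [(rd y' (by omega) (by omega)).1]; exact one_ne_zero⟩
  have fz : ∀ a ∈ F'.fz, a.lo ≤ x ∨ a.lo = x' ∨ a.lo = y' ∨ y ≤ a.lo := by
    simp only [hF, mem_insert, forall_eq_or_imp, Bs.lo, true_or, or_true, true_and]
    exact fun a k => (A.fz a k).imp_right fun k => .inr (.inr k)
  have yz := A.fr.yb.trans A.fr.bz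
  obtain ⟨a1, a2⟩ := A.ht.s0 A.pt m1 (k := q + (i + 1) + 1) (x := x) (y := x') (by omega) (by omega) (by omega)
    (by omega) (by omega) (by omega)
  rw [m0, m4, sx, if_neg (by omega)] at a2
  have W : Tw1 F' n X.z x x' ((13 - Q) / 4, kap (i + 1)) ((13 - Q) / 4, kap i) :=
    ⟨H'.cw cx cx' (by omega) (by omega), by omega, a1, a2.trans (by push_cast; ring), le_rfl, kap_le.2.1⟩
  obtain ⟨b1, b2, b3, b4⟩ := A.ht.S A.pt (k0 := q + 2) (k1 := q + (i + 1) + 1) (x := u (q + 2) + 4) (y := x')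
    (by omega) (by omega) (by omega) (by omega) (by omega) (by omega) (by omega)
  rw [m3, m4, sx, if_neg (by omega)] at b2 b3
  have B : Sc1 F' n x x' (u (q + 2) + 4) ((13 - Q) / 4, kap (i + 1)) ((13 - Q) / 4, kap i) 0
      ((i + 1 : ℕ) - 1 - 4 * tR) :=
    ⟨A.okS, by omega, by omega, by simp, b4, b1, b2.trans (congrArg _ (by omega)), A.sc.1.l1, A.sc.1.l2, by
      have : ((-Q : ℤ) : ℝ) ≤ (2 * ((i + 1 : ℕ) - 1 - 4 * tR) : ℤ) := Int.cast_le.2 (by omega)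
      push_cast at *; linarith, by
      have : kap i ≤ 2 * (i - tR) + 1 := by unfold kap; split_ifs <;> omega
      refine (Int.cast_le.2 this).trans_eq ?_
      erw [b3]; push_cast; ring⟩
  have d2 := (A.d2 (t := x') (by omega)).fz F'.fz
  have fz' : Fz F' x x' := fz_of H'.ok fun a k => by have := fz a k; omega
  have L : ∀ a : Bs, Wa F' x x' [] a → a.pin → Wp F' X.z n x x' ((13 - Q) / 4, kap (i + 1)) ((13 - Q) / 4, kap i) {a} →
      a.pin ∧ (a.lo ≤ a.hi ∧ x < a.lo ∧ a.hi < y) ∧ ∀ σ, Gd P F' n X.z x y X.b ((13 - Q) / 4, kap (i + 1)) Q K g σ →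
        Gd P F' n X.z x' y X.b ((13 - Q) / 4, kap i) Q K g (σ ∪ {↑a}) := fun a w p k =>
    ⟨p, ⟨(wf_of_ok w.ok).1.1, w.lo, w.hi.trans (by omega)⟩, fun σ h => h.left H' ((inn_one H'.ls fz' (by simp) w).mono
      le_rfl (by omega)) (by omega) (by omega) (by simpa using ⟨p, w.hi⟩) fun _ e => W.win1 (by simpa using e) fun _ => k⟩
  have C2 := C'.ofJ H' (a := Bs.sA (x + 2) (u (q + (i + 1) + 1) + 2)) (e := Bs.sS (u (q + 2) + 4)) (x' := x') (y' := y)
    (Q' := Q) (K' := K) (g' := g) (v' := ((13 - Q) / 4, kap i)) nofun (by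
      simp only [mem_insert, mem_singleton, forall_eq_or_imp, forall_eq]
      exact ⟨L _ d2.wa trivial (W.a d2), L _ B.wa trivial (W.sl B)⟩) (by omega) (by omega)
    (.inl (by simpa using ⟨d2.hi, B.hi⟩))
  obtain ⟨c1, c2, c3, c4⟩ := A.ht.S A.pt (k0 := q + (i + 1) + 1) (k1 := q + (i + 1) + 2) (x := y') (y := y)
    (by omega) (by omega) (by omega) (by omega) (by omega) (by omega) (by omega)
  rw [m2, m4, sx, if_pos (by omega)] at c2 c3
  have c5 : S F.w n al y' y = 0 := by rw [S_al, c1, c2]; push_cast; ring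
  have C3 := C2.right0 (Q' := Q) (y' := y') (H'.mono (by omega) (by omega) le_rfl) (by omega) (by omega)
    (fun σ k => win_df (H'.cw cy' cy (by omega) le_rfl) yz c4 (by rw [sub_self]; exact c5.ge)
      (by rw [sub_self]; erw [c3]; push_cast; linarith) (by simp [k])) (by erw [c5]; ring)
  have H3 : Fr P F' n X.z x' y' X.b := H'.mono (by omega) (by omega) (by omega)
  have rd' := rd.mono (a' := x') (b' := y') (by omega) (by omega)
  refine ⟨F', _, H3, cx', cy', fun a k => by have := fz a k; omega, rd', A.am.tr A.fr.yb rfl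
    (fun _ _ => ⟨rfl, rfl, rfl⟩) sub (by
      simp only [hF, mem_insert, forall_eq_or_imp, Bs.lo]
      exact ⟨.inr (by omega), .inr (by omega), fun _ => .inl⟩) (by omega) c4 (fun a k => (walls_J k).imp_right ?_),
    n2, C3, ?_⟩
  · rintro (rfl | rfl) <;> simp only [Bs.lo] <;> omega
  · rwa [← H.frz F _ _ _ sub (A.cc.pre.clJ A.fr.ls A.jo.1 A.jo.2.2.1) (C3.cl H3
      (fi_ft (H3.cw cx' cy' H3.xy le_rfl) (by omega) (ft_rd rd') (vQ_le kap_le.1)))]

/-- a letter on the right -/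
theorem hr (A : Af P T κ X q i tL tR l F n u x y Q K g d c ts)
    (ne : T.Z F (d + 1) (J (Bs.sS (u (q + 2) + 4)) ⟨.sS (u (q + 2) + 4), ts⟩ c) ≠ 0) :
    ∃ Q F g c, Tr P T κ X q i tL tR Q F n u (K + 1) g (d + 1) c := by
  have ps := A.pos
  obtain ⟨n1, n2, n3, n4, n5, n6⟩ := A.num
  obtain ⟨m0, m1, m2, m3, m4, -⟩ := mu_val A.num
  obtain ⟨-, -, -, m3', m4'⟩ := A.mu'
  have rd := A.pt.rd 2 (by omega)
  rw [A.ht.v 2 (by omega), show (q : ℤ) + 2 - (2 : ℕ) = q by simp] at rd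
  have r1 := A.pt.rd 1 (by omega) (u 1 + 4) (by omega) (by omega)
  set Q' := Q + 2 * (i - 1) - 8 * tR + 1 + 2 * q - 8 * tL with hQ
  have sub : F.fz ⊆ insert (.yS (u 1 + 4)) (insert (.yS (u 2 + 1)) (insert (.yS (u 3 - 2)) F.fz)) :=
    (subset_insert _ _).trans ((subset_insert _ _).trans (subset_insert _ _))
  have H' := A.fr.frz sub (by
    simp only [mem_insert, forall_eq_or_imp]
    exact ⟨.inr ⟨_, rfl, by omega, by omega⟩, .inr ⟨_, rfl, by omega, by omega⟩, .inr ⟨_, rfl, by omega, by omega⟩,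
      fun _ => .inl⟩)
  have C' := A.cc.frz A.fr sub (by
    simp only [mem_insert, forall_eq_or_imp, Bs.lo, Bs.hi]
    exact ⟨.inr (by omega), .inr (by omega), .inr (by omega), fun _ => .inl⟩)
  set F' : Fm Γ := { F with fz := insert (.yS (u 1 + 4)) (insert (.yS (u 2 + 1)) (insert (.yS (u 3 - 2)) F.fz)) }
    with hF
  have cy : F'.Cut y := ⟨sub A.cy.1, A.cy.2⟩
  have cx' : F'.Cut (u 2 + 1) := ⟨by simp [hF], by rw [(rd _ (by omega) (by omega)).1]; exact one_ne_zero⟩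
  have cy' : F'.Cut (u 3 - 2) := ⟨by simp [hF], by rw [(rd _ (by omega) (by omega)).1]; exact one_ne_zero⟩
  have Y : F'.Y0 n (u 1 + 4) := ⟨by simp [hF], by rw [r1.1]; rfl, by rw [r1.2.2, m1]; exact odd_one⟩
  have fz : ∀ a ∈ F'.fz, a.lo ≤ x ∨ a = .yS (u 1 + 4) ∨ a = .yS (u 2 + 1) ∨ a.lo = u 3 - 2 ∨ y ≤ a.lo := by
    simp only [hF, mem_insert, forall_eq_or_imp, Bs.lo, true_or, or_true, true_and]
    exact fun a k => (A.fz a k).imp_right fun k => .inr (.inr (.inr k))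
  have fz2 : ∀ a ∈ F'.fz, a.lo ≤ u 2 + 1 ∨ a.lo = u 3 - 2 ∨ y ≤ a.lo := fun a k => by
    rcases fz a k with e | rfl | rfl | e <;> simp only [Bs.lo] at * <;> omega
  have fz' : Fz F' (u 3 - 2) y := fz_of H'.ok fun a k => by have := fz2 a k; omega
  have cw := H'.cw cy' cy (by omega) le_rfl
  obtain ⟨b1, b2, b3, b4⟩ := A.ht.S A.pt (k0 := 2) (k1 := q + 2) (x := u 3 - 2) (y := u (q + 2) + 4)
    (by omega) (by omega) (by omega) (by omega) (by omega) (by omega) (by omega)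
  obtain ⟨c1, c2, c3, -⟩ := A.ht'.S A.pt' (k0 := 2) (k1 := q + 2) (x := u 3 - 2) (y := u (q + 2) + 4)
    (by omega) (by omega) (by omega) (by omega) (by omega) (by omega) (by omega)
  rw [m3, m4, sx, if_neg (by omega)] at b2 b3
  rw [m3', m4', sx, if_pos (by omega)] at c2 c3
  have nt : (Bs.sS (u (q + 2) + 4) : Wl) ≠ ⟨.sS (u (q + 2) + 4), ts⟩ := fun e => A.ne (congrArg Wl.tw e).symm
  have pp : u (q + 2) + 4 ≤ u (q + 2) + 4 ∧ x < u (q + 2) + 4 ∧ u (q + 2) + 4 < y := by omega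
  have C2 := C'.ofJ H' (x' := x) (y' := u 3 - 2) (Q' := Q') (K' := K + 1) (g' := gs y g) nt (by
    simp only [mem_insert, mem_singleton, forall_eq_or_imp, forall_eq]
    exact ⟨⟨trivial, pp, fun σ h => h.sig (ts := []) H' cw (by omega) fz' (by simp) (A.sc.1.fz _) (by omega) b4 b1 b2
      (by erw [b3]; exact Int.cast_nonneg (by omega)) A.sc.2 le_rfl (by omega) (by omega) (by omega) (by omega)
      fun _ => A.am.cnt⟩, trivial, pp, fun σ h => h.sig H' cw (by omega) fz' (fun τ k => by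
        have := A.tw τ k; exact ⟨this.1, by omega, by omega⟩) (A.sc'.1.fz _) (by omega) b4 c1 c2
      (by erw [c3]; exact Int.cast_nonneg (by omega)) A.sc'.2 (by omega) (by omega) (by omega) (by omega) (by omega)
      fun _ => A.am.cnt⟩) le_rfl (by omega) (.inr (by simpa [Bs.lo] using pp.2.1))
  have H2 : Fr P F' n X.z x (u 3 - 2) X.b := H'.mono le_rfl (by omega) (by omega)
  obtain ⟨a1, a2⟩ := A.ht.s0 A.pt m1 (k := 2) (x := x) (y := u 2 + 1) (by omega) (by omega) (by omega)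
    (by omega) (by omega) (by omega)
  rw [m0, m3, sx, if_neg (by omega)] at a2
  have a3 : S F.w n al x (u 1 + 4) + S F.w n al (u 1 + 4) (u 2 + 1) = (Q - Q') / 4 := by
    rw [← S_cut (by omega) (by omega), S_al, a1, a2, hQ]; push_cast; ring
  have C3 := C2.left0 H2 (x' := u 1 + 4) (v' := ((13 - Q') / 4 - S F.w n al (u 1 + 4) (u 2 + 1), 5)) (by omega)
    (by omega) fun σ k => win_hg H'.ls k Y (by omega) le_rfl (by change _ ≤ S F.w _ _ _ _; simp only; linarith)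
  have C4 := C3.left0 (H2.mono (by omega) (by omega) le_rfl) (x' := u 2 + 1) (v' := ((13 - Q') / 4, 5)) (by omega)
    (by omega) fun σ k => win_hg H'.ls k Y le_rfl (by omega) (by change _ ≤ S F.w _ _ _ _; simp only; linarith)
  have H3 : Fr P F' n X.z (u 2 + 1) (u 3 - 2) X.b := H'.mono (by omega) (by omega) (by omega)
  have rd' := rd.mono (a' := u 2 + 1) (b' := u 3 - 2) (by omega) (by omega)
  have cl := A.cc.pre.clJ A.fr.ls A.jo.2.2.1 A.jo.2.2.2.2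
  have f' : ∀ a ∈ F'.fz, a ∈ F.fz ∨ a.lo ≤ y := by
    simp only [hF, mem_insert, forall_eq_or_imp, Bs.lo]
    exact ⟨.inr (by omega), .inr (by omega), .inr (by omega), fun _ => .inl⟩
  have yb := A.fr.yb
  obtain ⟨p, hp⟩ := Ax0_ne H cl ne
  obtain ⟨p', hp', -⟩ := mem_J hp
  refine ⟨Q', F', gs y g, _, n1, ⟨H3, cx', cy', fun a k => by have := fz2 a k; omega, rd',
    (A.am.tr (F' := F') (c' := c) yb rfl (fun _ _ => ⟨rfl, rfl, rfl⟩) sub f' le_rfl (fun _ _ _ => by omega) fun _ => .inl).gs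
      (A.am.tr (F' := F') yb rfl (fun _ _ => ⟨rfl, rfl, rfl⟩) sub f' (by omega) (b4.trans A.sc.1.df)
        fun a k => (walls_J k).imp_right ?_) (by omega) yb cy, n5, C4, ?_⟩, A.pt, A.gap, by omega, Y.1, fun a k => ?_,
    mem_walls.2 ⟨_, mem_J' nt (A.cc.notMem A.fr pp) hp', mem_insert_self _ _⟩, fun p hp => ?_⟩
  · rintro (rfl | rfl) <;> exact pp.2.2.le
  · rwa [← H.frz F _ _ _ sub cl (C4.cl H3 (fi_ft (H3.cw cx' cy' H3.xy le_rfl) (by have := A.fr.bz; omega) (ft_rd rd')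
      (vQ_le (by norm_num))))]
  · rcases mem_union.1 k with k | k
    · obtain ⟨a, k', rfl⟩ := mem_image.1 k
      obtain ⟨p, hp, k⟩ := mem_walls.1 k'
      have := (C3.cell p hp).2.pos H2.yb (mem_image_of_mem Wl.b k)
      exact .inr (.inr (by omega))
    · obtain ⟨-, j, rfl⟩ := H'.ok.fz a k
      rcases fz _ k with e | e | e | e
      exacts [.inr (.inr (.inl (by simp only [Bs.lo, Bs.hi] at *; omega))), .inl e, .inr (.inl e),
        .inr (.inr (.inr (by omega)))]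
  · obtain ⟨v, W⟩ := (C3.cell p hp).2.wl
    exact ⟨v, _, W, sub_add_cancel _ _⟩

end Af

/-- the cosmetic junction and its inverse -/
structure J1 (P : Pm Γ) (κ : Γ.ι) (q : ℕ) (f fi : Γ.J) : Prop where
  src : Γ.src f = (κ, ((q : ℤ), 1))
  tgt : Γ.tgt f = (κ, (-(q : ℤ), 1))
  src' : Γ.src fi = Γ.tgt f
  tgt' : Γ.tgt fi = Γ.src f
  iv : P.iv f fi
  ok : ∀ μ μ', P.Λ.ok f μ μ' ∧ P.Λ.ok fi μ' μ

theorem St.can {f fi : Γ.J} {μ : ℤ} (H : Ax0 P T) (D : J1 P κ q f fi)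
    (h : St P T κ X (q, 1) μ 5 F n x y Q K g d c) (L : x + 8 ≤ y) :
    ∃ F n c, St P T κ X (-(q : ℤ), 1) (q - q) (kap q) F n (x + 3) (y - 3) Q K g d c := by
  have lo := h.fr.lo
  have hi := (cut_lt h.fr.ok h.cy).2
  have yz := h.fr.yb.trans h.fr.bz
  have rd : Rd F.w n (Γ.src f).1 (Γ.src f).2 μ (x + 2 - 1) (y - 2 + 1) := D.src ▸ h.rd.mono (by omega) (by omega)
  have ok := can_ok (μ' := q - q) h.fr.ok.w h.fr.lok.ok (by omega) (by omega) (by omega) rd D.src' D.tgt'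
    (D.tgt ▸ ⟨(1, 0), .inr (by simp [dt])⟩) (D.ok _ _).1 (D.ok _ _).2
  have ag := can_ag (w := F.w) (J := f) (J' := fi) (μ' := q - q) n (show x + 2 < y - 2 by omega)
  have r2 := can_rd (w := F.w) (J := f) (J' := fi) (x := x + 2) (y := y - 2) (μ' := q - q) n
  obtain ⟨x1, -⟩ := can_x (w := F.w) (J := f) (J' := fi) (μ' := q - q) n (show x + 2 < y - 2 by omega)
  obtain ⟨y1, -⟩ := can_y (w := F.w) (J := f) (J' := fi) (μ' := q - q) n (show x + 2 < y - 2 by omega)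
  have can := can_can (J' := fi) (by omega) (show x + 2 < y - 2 by omega) (by omega) rd
  rw [D.tgt, show x + 2 + 1 = x + 3 by ring, show y - 2 - 1 = y - 3 by ring] at r2
  set w := Wd38.Shp.can F.w f fi (x + 2) (y - 2) with hw
  have sl : ∀ j, x ≤ j → j ≤ y → (w.s j).l.2 = if x + 2 < j ∧ j ≤ y - 2 then (-(q : ℤ), 1) else ((q : ℤ), 1) :=
    fun j a b => by
      rcases (show j < x + 2 ∨ y - 2 < j ∨ j = x + 2 ∨ j = y - 2 ∨ (x + 3 ≤ j ∧ j ≤ y - 3) by omega) with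
        e | e | rfl | rfl | e
      · rw [(ag j (.inl e)).1, (h.rd j a b).1, if_neg (by omega)]; rfl
      · rw [(ag j (.inr e)).1, (h.rd j a b).1, if_neg (by omega)]; rfl
      · rw [x1, if_neg (by omega), Sl.l, D.src]
      · rw [y1, if_pos (by omega), Sl.l, D.src', D.tgt]
      · rw [(r2 j e.1 e.2).1, if_pos (by omega)]; rfl
  have sr : ∀ j, x ≤ j → j ≤ y → (w.s j).r.2 = if x + 2 ≤ j ∧ j < y - 2 then (-(q : ℤ), 1) else ((q : ℤ), 1) :=
    fun j a b => by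
      rcases (show j < x + 2 ∨ y - 2 < j ∨ j = x + 2 ∨ j = y - 2 ∨ (x + 3 ≤ j ∧ j ≤ y - 3) by omega) with
        e | e | rfl | rfl | e
      · rw [(ag j (.inl e)).1, (h.rd j a b).1, if_neg (by omega)]; rfl
      · rw [(ag j (.inr e)).1, (h.rd j a b).1, if_neg (by omega)]; rfl
      · rw [x1, if_pos (by omega), Sl.r, D.tgt]
      · rw [y1, if_neg (by omega), Sl.r, D.tgt', D.src]
      · rw [(r2 j e.1 e.2).1, if_pos (by omega)]; rfl
  have ft : Ft w x y := fun j a b => by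
    rw [Shp.lf, Shp.rt, sl j a.le b, sr _ (by omega) (by omega)]
    split_ifs <;> first | exact Wd38.dt_self _ | omega
  have H' := h.fr.tr ok.1 ok.2 (fun j => by
    by_cases e : x ≤ j ∧ j ≤ y
    · rw [sl j e.1 e.2, sr j e.1 e.2]; split_ifs <;> simp
    · rw [(ag j (by omega)).1]; exact h.fr.p1 j) rfl rfl (fun j k => (ag j (by omega)).1) rfl rfl
  have C' := h.cc.tr h.fr (F' := { F with w := w }) (Wt.can (x + 2) (y - 2) (q - q)) h.fr.ls rfl rfl
    (ag.mono fun j k => by omega) Subset.rfl fun _ => .inl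
  have cx : Fm.Cut { F with w := w } x := ⟨h.cx.1, (ag x (by omega)).1 ▸ h.cx.2⟩
  have cy : Fm.Cut { F with w := w } y := ⟨h.cy.1, (ag y (by omega)).1 ▸ h.cy.2⟩
  have cl := C'.cl H' (fi_ft (H'.cw cx cy H'.xy le_rfl) yz ft (vQ_le (by norm_num)))
  have e1 := h.cc.can h.fr H can D.iv (by rw [D.src]; exact one_ne_zero) can_chg (by omega) (by omega) h.fz
    (fi_ft (h.fr.cw h.cx h.cy h.fr.xy le_rfl) yz (ft_rd h.rd) (vQ_le (by norm_num))) cl
  have sub : F.fz ⊆ insert (.yS (x + 3)) (insert (.yS (y - 3)) F.fz) := (subset_insert _ _).trans (subset_insert _ _)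
  have H2 := H'.frz sub (by
    simp only [mem_insert, forall_eq_or_imp]
    exact ⟨.inr ⟨_, rfl, by omega, by omega⟩, .inr ⟨_, rfl, by omega, by omega⟩, fun _ => .inl⟩)
  have C2 := C'.frz H' sub (by
    simp only [mem_insert, forall_eq_or_imp, Bs.lo, Bs.hi]
    exact ⟨.inr (by omega), .inr (by omega), fun _ => .inl⟩)
  set F' : Fm Γ := ⟨w, insert (.yS (x + 3)) (insert (.yS (y - 3)) F.fz), F.ls⟩ with hF
  have cx' : F'.Cut (x + 3) := ⟨by simp [hF], by rw [(r2 _ le_rfl (by omega)).1]; exact one_ne_zero⟩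
  have cy' : F'.Cut (y - 3) := ⟨by simp [hF], by rw [(r2 _ (by omega) le_rfl).1]; exact one_ne_zero⟩
  have f1 : Ft w x (x + 3) := fun j a b => ft j a (by omega)
  have f2 : Ft w (y - 3) y := fun j a b => ft j (by omega) b
  have C3 := (C2.left0 H2 (x' := x + 3) (v' := ((13 - Q) / 4, kap q)) (by omega) (by omega) fun σ k =>
    win_ft (H2.cw ⟨sub cx.1, cx.2⟩ cx' (by omega) (by omega)) (by omega) f1 ⟨le_rfl, kap_le.2.2⟩ (by simp [k])).right0
    (Q' := Q) (y' := y - 3) (H2.mono (by omega) (by omega) le_rfl) (by omega) (by omega) (fun σ k =>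
      win_ft (H2.cw cy' ⟨sub cy.1, cy.2⟩ (by omega) le_rfl) yz f2 le_rfl (by simp [k])) (by erw [f2.S vn_al]; ring)
  have H3 : Fr P F' _ X.z (x + 3) (y - 3) X.b := H2.mono (by omega) (by omega) (by omega)
  refine ⟨F', _, _, H3, cx', cy', ?_, r2, h.am.tr h.fr.yb rfl (ag.mono fun j k => by omega) sub ?_ (by omega) f2.df
    fun a k => .inl (walls_mp _ a k), h.q, C3, ?_⟩
  · simp only [hF, mem_insert, forall_eq_or_imp, Bs.lo, le_refl, true_or, or_true, true_and]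
    exact fun a k => (h.fz a k).imp (fun k => k.trans (by omega)) fun k => le_trans (by omega) k
  · simp only [hF, mem_insert, forall_eq_or_imp, Bs.lo]
    exact ⟨.inr (by omega), .inr (by omega), fun _ => .inl⟩
  · rw [← H.frz { F with w := w } _ _ _ sub cl (C3.cl H3 (fi_ft (H3.cw cx' cy' H3.xy le_rfl) (by omega) (ft_rd r2)
      (vQ_le kap_le.1))), e1]
    exact h.ne

end Crest.Agent.X212.Nm96
end
end

-- ▼ part X212/Nm96/Ph
section

/-!
# Row 212, `p = 1` (helper96), part h: the walk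
-/

set_option autoImplicit false
noncomputable section

namespace Crest.Agent.X212.Nm96

open Crest.Agent.X212.Rod53 Crest.Agent.X212.Wd38 Finset Cn

variable {Γ : Nm} {P : Pm Γ} {T : WTh Γ} {X : Fx Γ} {κ : Γ.ι} {q : ℕ} {f fi : Γ.J}

/-- the end of a descent -/
def En (P : Pm Γ) (T : WTh Γ) (κ : Γ.ι) (X : Fx Γ) (q A K : ℕ) : Prop := ∃ i tL tR Q F n u g d c,
  Tr P T κ X q i tL tR Q F n u K g d c ∧ u 3 = u 2 + 8 + A ∧ (A = 0 → Off q u)

/-- **the descent** -/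
theorem desc (H : Ax0 P T) (A i : ℕ) (h1 : 1 ≤ i) (h2 : i ≤ q) : ∃ L : ℕ, ∀ F n x y Q K g d c,
    St P T κ X (-(i : ℤ), 1) (q - i) (kap i) F n x y Q K g d c → x + L ≤ y → En P T κ X q A (K + 1) := by
  have key : ∀ i : ℕ, 1 ≤ i → i ≤ q → ∀ (B : ℕ) F n x y Q K g d c,
      St P T κ X (-(i : ℤ), 1) (q - i) (kap i) F n x y Q K g d c → x + (8 * (q + i + 3) + A + B : ℕ) ≤ y →
      En P T κ X q A (K + 1) ∨ ∃ tL tR l F n u c ts, Af P T κ X q i tL tR l F n u x y Q K g d c ts ∧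
        u (q + i + 1) + 8 + B ≤ u (q + i + 2) ∧
        T.Z F (d + 1) (J (Bs.sA (x + 2) (u (q + i + 1) + 2)) (Bs.sS (u (q + 2) + 4)) c) ≠ 0 := by
    intro i h1 h2 B F n x y Q K g d c h L
    obtain ⟨tL, tR, l, N⟩ := num h1 h2 h.q
    obtain ⟨u, hu⟩ : ∃ u : ℕ → ℤ, ∀ k, u k = x + 8 * k + (if 3 ≤ k then (A : ℤ) else 0) +
        if q + i + 2 ≤ k then y + 1 - x - 8 * (q + i + 3) - A else 0 := ⟨_, fun _ => rfl⟩
    obtain ⟨F, n, c, ts, a, ne⟩ := turn1 (u := u) H h N (fun k => by rw [hu, hu]; split_ifs <;> omega)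
      (by rw [hu]; split_ifs <;> omega) (by rw [hu]; split_ifs <;> omega)
    rw [a.br H] at ne
    by_cases e : T.Z F (d + 1) (J (Bs.sA (x + 2) (u (q + i + 1) + 2)) (Bs.sS (u (q + 2) + 4)) c) = 0
    · obtain ⟨Q, F, g, c, t⟩ := a.hr H (by rwa [e, zero_add] at ne)
      exact .inl ⟨_, _, _, _, _, _, _, _, _, _, t, by rw [hu, hu]; split_ifs <;> omega,
        fun e k p r => by rw [hu, hu]; split_ifs <;> omega⟩
    · exact .inr ⟨_, _, _, _, _, _, _, _, a, by rw [hu, hu]; split_ifs <;> omega, e⟩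
  induction i, h1 using Nat.le_induction with
  | base =>
    refine ⟨_, fun F n x y Q K g d c h L => (key 1 le_rfl h2 0 F n x y Q K g d c h L).resolve_right ?_⟩
    rintro ⟨_, _, _, _, _, _, _, _, a, -, ne⟩
    exact ne (a.one H rfl)
  | succ i h1 ih =>
    obtain ⟨B, ih⟩ := ih (by omega)
    refine ⟨_, fun F n x y Q K g d c h L => (key (i + 1) (by omega) h2 B F n x y Q K g d c h L).elim id ?_⟩
    rintro ⟨_, _, _, _, _, _, _, _, a, k, ne⟩
    obtain ⟨F, c, s⟩ := a.hl H h1 ne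
    exact ih _ _ _ _ _ _ _ _ _ s (by omega)

/-- **the walk** -/
theorem walk1 (H : Ax0 P T) (D : J1 P κ q f fi) (h1 : 1 ≤ q) (r : ℕ) : ∃ L : ℕ, ∀ μ F n x y Q K g d c,
    St P T κ X (q, 1) μ 5 F n x y Q K g d c → x + L ≤ y → En P T κ X q 0 (K + r + 1) := by
  induction r with
  | zero =>
    obtain ⟨L, k⟩ := desc (X := X) (κ := κ) H 0 q h1 le_rfl
    refine ⟨L + 8, fun μ F n x y Q K g d c h l => ?_⟩
    obtain ⟨F, n, c, s⟩ := h.can H D (by omega)
    exact k _ _ _ _ _ _ _ _ _ s (by omega)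
  | succ r ih =>
    obtain ⟨A, ih⟩ := ih
    obtain ⟨L, k⟩ := desc (X := X) (κ := κ) H A q h1 le_rfl
    refine ⟨L + 8, fun μ F n x y Q K g d c h l => ?_⟩
    obtain ⟨F, n, c, s⟩ := h.can H D (by omega)
    obtain ⟨i, tL, tR, Q, F, n, u, g, d, c, t, e, -⟩ := k _ _ _ _ _ _ _ _ _ s (by omega)
    rw [show K + (r + 1) + 1 = K + 1 + r + 1 by omega]
    exact ih _ _ _ _ _ _ _ _ _ _ t.st (by omega)

/-- **`p = 1`** from the entry and the terminal statement -/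
theorem opp_of (tr : TrStmt) (en : EnStmt) {c ci : Γ.J} (H : Ax0 P T) (Fw : Tm38.FactW P T) (E : Ent P κ c ci)
    (D : J1 P κ q f fi) (h1 : 1 ≤ q) : False := by
  obtain ⟨X, hX⟩ := en P T κ c ci q h1 H E
  choose N hN using fun t : ℕ × ℕ × ℕ × ℤ => tr P T κ X q t.1 t.2.1 t.2.2.1 t.2.2.2 Fw
  obtain ⟨L, k⟩ := walk1 (X := X) H D h1 ((range (q + 1) ×ˢ range (q + 1) ×ˢ range (q + 1) ×ˢ Icc (-2) 5).sup N)
  obtain ⟨μ, F, n, x, y, Q, d, c, s, l⟩ := hX L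
  obtain ⟨i, tL, tR, Q, F, n, u, g, d, c, t, -, o⟩ := k _ _ _ _ _ _ _ _ _ _ s l
  refine hN (i, tL, tR, Q) _ _ _ _ _ _ _ ((le_sup ?_).trans (Nat.le_succ_of_le (Nat.le_add_left _ 0))) (o rfl) t
  have := t.i1
  have := t.st.q
  simp only [mem_product, mem_range, mem_Icc]
  omega

end Crest.Agent.X212.Nm96
end
end

-- ▼ part X212/Nm96/Pi
section

/-!
# Row 212, `p = 1` (helper96), part i: the entry
-/

set_option autoImplicit false
noncomputable section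

namespace Crest.Agent.X212.Nm96

open Crest.Agent.X212.Rod53 Crest.Agent.X212.Wd38 Finset Cn

variable {Γ : Nm} {P : Pm Γ} {T : WTh Γ} {X : Fx Γ} {F F₀ : Fm Γ} {n n₀ : Wt} {κ : Γ.ι} {u g m : ℕ → ℤ}
  {x y z s t x' y' μ Q : ℤ} {q r d K N : ℕ} {c c₀ : Cn} {V : ℕ → Z2} {v v' : ℝ × ℝ}

/-- the first state -/
theorem st_of (H : Ax0 P T) (S : Sam t F₀ n₀ c₀ F n c) (h : SKs P T κ 0 F n z t d c x μ) (lt : x < t) :
    ∃ F, St P T κ ⟨F₀, n₀, c₀.walls.image Wl.b ∪ F₀.fz, z, t⟩ (1, 1) μ 5 F n x t 5 0 (fun _ => 0) d c := by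
  have B := h.bas
  obtain ⟨ct, -, cz⟩ := B.hi.resolve_right (by have := h.tr; omega)
  have rd : Rd F.w n κ (1, 1) μ x t := h.rd
  have H0 : Fr P F n z x t t := ⟨B.ok, B.ls, B.lok, B.p1, h.lo, lt, le_rfl, h.tz, cz⟩
  have sub : F.fz ⊆ insert (.yS x) F.fz := subset_insert _ _
  have H1 := H0.frz sub (by
    simp only [mem_insert, forall_eq_or_imp]; exact ⟨.inr ⟨_, rfl, le_rfl, lt.le⟩, fun _ => .inl⟩)
  set F' : Fm Γ := { F with fz := insert (.yS x) F.fz } with hF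
  have cx : F'.Cut x := ⟨mem_insert_self _ _, by rw [(rd x le_rfl lt.le).1]; exact one_ne_zero⟩
  have cy : F'.Cut t := ⟨sub ct.1, ct.2⟩
  have C : Cc P F' n z x t t ((13 - (5 : ℤ)) / 4, 5) 5 0 (fun _ => 0) d c := by
    refine ⟨h.ch.pre, fun p hp => ?_, fun p hp q hq => ?_⟩
    · obtain ⟨e, tw, k⟩ := h.ch.cell p hp
      have k := k.tr (F' := F') (n' := n) B.ls B.ls rfl rfl (fun _ _ => ⟨rfl, rfl, rfl⟩) sub (by
        simp only [hF, mem_insert, forall_eq_or_imp]; exact ⟨.inr lt.le, fun _ => .inl⟩)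
      have o := fun a i => k.ok _ (mem_image_of_mem Wl.b (a := a) i)
      have e0 : wn t t (p.2.image Wl.b) = ∅ := eq_empty_of_forall_notMem fun a i => by have := mem_wn.1 i; omega
      refine ⟨e, fun a i a' i' e => ?_, fun a i => ⟨(o a i).2.1, (o a i).2.2, .inr (.inr ⟨tw a i, (o a i).1⟩)⟩, k.far,
        fun a i => k.fz _ (mem_image_of_mem _ i), head ⟨B.ls, B.ok.w, B.p1, (sub_one_lt _).trans h.lo, .inl rfl,
          .inl ⟨cx, lt.le.trans h.tz⟩⟩ fun A hA _ => ?_, ⟨[], by simp, trivial, tw, (k.win h.tr).mono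
          ⟨by simp [vT, vQ]; norm_num, by simp [vT, vQ]⟩ le_rfl, ?_, by rw [e0]; rfl, fun j a b i => ?_⟩, k.win h.tr⟩
      · have := tw a i; have := tw a' i'
        cases a; cases a'; simp_all
      · rw [show A = ∅ from eq_empty_of_forall_notMem fun a i => by
          have := mem_wn.1 (hA i); have := k.ok a this.1; omega]
        exact br_nil
      · rw [pot, e0, S_self]; simp
      · have : t < j := (k.ok _ i).1
        omega
    · have o : ∀ p ∈ c.support, ∀ a ∈ p.2, t < a.b.lo ∧ a.b.lo ≤ a.b.hi := fun p hp a i =>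
        have := (h.ch.cell p hp).2.2.ok _ (mem_image_of_mem Wl.b i)
        ⟨this.1, (wf_of_ok this.2.2).1.1⟩
      rwa [filter_false_of_mem fun a i => by have := o p hp a i; omega, empty_union,
        filter_true_of_mem fun a i => by have := o q hq a i; omega]
  refine ⟨F', H1, cx, cy, ?_, rd, ⟨cy, fun _ a b => (b.not_gt a).elim, by simp, by simp, S.r, S.aq, ?_, fun a k _ =>
    mem_union_left _ (mem_image_of_mem _ (walls_mp _ a (S.c ▸ k)))⟩, by norm_num, C, ?_⟩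
  · simp only [hF, mem_insert, forall_eq_or_imp]; exact ⟨.inl le_rfl, fun a k => .inr (B.fz a k)⟩
  · simp only [hF, mem_insert, forall_eq_or_imp]
    exact ⟨fun k => (k.not_gt lt).elim, fun a k _ => mem_union_right _ (S.fz ▸ k)⟩
  · rw [← H.frz F _ _ _ sub (h.ch.cl B) (C.cl H1 (fi_ft (H1.cw cx cy lt le_rfl) h.tz (ft_rd rd)
      (vQ_le (by norm_num))))]
    exact h.ne

/-- left of a slice, an arc right of it -/
theorem pc_la {σ : Finset Bs} {η : Bs → Bool} {k : ℤ} (H : Cw F s t z) (o : (Bs.sA x y).OK F.w)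
    (o' : (Bs.sS x').OK F.w) (h : s < x') (h1 : x' < x) (h' : y < t) (hη : η (.sA x y) = true)
    (hη' : η (.sS x') = false)
    (e : Nq F n {.sA x y, .sS x'} η s t z (-v.1) (-v.2) (S F.w n lp s x') (S F.w n uu s x') 0 0 (-k)) :
    F.Pc z 0 n σ {.sA x y, .sS x'} (cf k) s t v v' η :=
  have xy := o.1.lt
  have ne : Bs.sA x y ≠ .sS x' := nofun
  pc_ne (x := s) (y := x') (x' := x') (y' := x') H (by simp [Bs.pin, Bs.hi, o, o', h']; omega) {.sS x'}
    (fun c a b => by simp [InV, Bs.side, hη, hη', a]; omega)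
    (fun b => by
      rw [adj_two ne]
      simp [Bs.lo, Bs.side, hη, hη', h.le, show x' < t by omega, show ¬x ≤ x' by omega, show x' ≤ x by omega])
    le_rfl le_rfl (by omega) h.le le_rfl (by simp [S_self, sv, Bs.arc]) (by simp [S_self, sv, Bs.arc]) asum_nn
    (by simp [dp, InV, Bs.side, hη, hη', h, show x' < t by omega, show s < x by omega])
    (by simp [dp, InV, Bs.side, hη, hη', h, show x' < t by omega, show s < x by omega])
    (fun ε => by rw [sum_singleton]; simp [Bs.side, Bs.lo, Bs.arc, cf, hη']) e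

/-- a turn on the gap -/
theorem St.rf {τ : Z2} {k : ℝ} {x₁ y₁ x₂ y₂ : ℤ} (H : Ax0 P T) (h : St P T κ X τ μ k F n x y Q K g d c) (k0 : 0 ≤ k)
    (tq : Tq F.w n κ u V m N) (u0 : u 0 = x) (u1 : x + 1 < u 1) (u2 : u N < y) (uN : u (N + 1) = y + 1)
    (H' : Fr P { F with w := pw F.w κ u V N } (pn u m N n) X.z x y X.b)
    (C' : Cc P { F with w := pw F.w κ u V N } (pn u m N n) X.z x y X.b ((13 - Q) / 4, k) Q K g d
      (c.mp (pn u m N) id ∅))
    (W : Tw1 { F with w := pw F.w κ u V N } (pn u m N n) X.z x y ((13 - Q) / 4, k) (vQ Q))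
    (a : Ar { F with w := pw F.w κ u V N } (pn u m N n) x y x₁ y₁) (a1 : x + 1 < x₁) (a2 : y₁ < y - 1)
    (e : Ar { F with w := pw F.w κ u V N } (pn u m N n) x y x₂ y₂) (e1 : x + 1 < x₂) (e2 : y₂ < y - 1)
    (rs : Fm.RS ⟨pw F.w κ u V N, F.fz, ∅⟩ (pn u m N n) (x + 1) (y - 1) (.sA x₁ y₁) (.sA x₂ y₂)) :
    T.Z { F with w := pw F.w κ u V N } (d + 1) (J (Bs.sA x₁ y₁) (Bs.sA x₂ y₂) (c.mp (pn u m N) id ∅)) ≠ 0 := by
  have g2 := tq.mono.monotone tq.pos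
  have ag := (pw_ag (w := F.w) (κ := κ) (u := u) (V := V) (m := m) (N := N) n).mono
    (s' := fun j => j ≤ x + 1 ∨ y - 1 ≤ j) fun j k => by omega
  have cw := h.fr.cw h.cx h.cy h.fr.xy le_rfl
  have yz := h.fr.yb.trans h.fr.bz
  have sur := tq.sur (x := x + 1) (y := y - 1) (by omega) (by omega) (by omega) (by omega)
  have r0 := h.rd (x + 1) (by omega) (by omega)
  have r1 := h.rd (y - 1) (by omega) (by omega)
  have R : ∀ {w n}, w.Rg (x + 1) (y - 1) → Pr (w.s (x + 1)).r.2 → w.s (x + 1) = .rod (κ, τ) →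
      w.s (y - 1) = .rod (κ, τ) → n.nl (y - 1) = n.nr (x + 1) →
      (Bs.rA (x + 1) (y - 1)).OK w ∧ (Bs.rA (x + 1) (y - 1)).OKn w n := fun a p b c e =>
    ⟨⟨a, .inl (by rw [b, c]; rfl)⟩, fun _ => e, fun k => (Pr.ne_neg p (by rw [b, c] at *; exact k)).elim⟩
  have pr := (h.fr.ok.w.pr (x + 1) sur.rg'.lo (sur.rg'.lt.le.trans sur.rg'.hi)).2
  obtain ⟨o1, o2⟩ := R (n := n) sur.rg' pr r0.1 r1.1 (r1.2.1.trans r0.2.2.symm)
  obtain ⟨a1', a2', a3⟩ := ag (x + 1) (.inl le_rfl)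
  obtain ⟨b1, b2, b3⟩ := ag (y - 1) (.inr le_rfl)
  obtain ⟨o3, o4⟩ := R sur.rg (a1' ▸ pr) (a1'.trans r0.1) (b1.trans r1.1)
    (b2.trans (r1.2.1.trans (r0.2.2.symm.trans a3.symm)))
  have fz : Fz { F with w := pw F.w κ u V N } x y := fz_of H'.ok h.fz
  have one := fun a (i : Wa _ x y [] a) => inn_one H'.ls fz (by simp) i
  rw [h.cc.rf h.fr H C' H' sur (by omega) (by omega) (fun j a b => by rw [r0.1]; exact (h.rd j (by omega) (by omega)).1)
    (pn_chg (by omega) (by omega)) (h.fr.ls ▸ rs) (fi_ft cw yz (ft_rd h.rd) (vQ_le k0))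
    ⟨[], inn_one h.fr.ls (fz_of h.fr.ok h.fz) (by simp)
      ⟨o1, by change x < x + 1; omega, by change y - 1 < y; omega, .inl rfl⟩, by simpa [acts] using o2,
      fun σ k => win_ft cw yz (ft_rd h.rd) (vQ_le k0) (by simp [k, Bs.pin])⟩
    (W.fiR fz a o3 o4 (by omega) a1 a2 (by omega)) (W.fiR fz e o3 o4 (by omega) e1 e2 (by omega))
    (C'.jo H' (Tw1.fi1 (ts := []) W (one _ a.wa) trivial (W.a a)) trivial)
    (C'.jo H' (Tw1.fi1 (ts := []) W (one _ e.wa) trivial (W.a e)) trivial)]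
  exact h.ne

/-- the rods of the entry turn -/
def VE (q k : ℕ) : Z2 := if k = 0 then (1, 1) else if k = 1 then (0, 1) else if k = 2 then (1, 0) else
  ((q : ℤ) + 3 - k, 1)

/-- its orders -/
def mE (μ : ℤ) (r k : ℕ) : ℤ := if k = 0 then μ else if k = 1 then μ - 1 else if k = 2 then 1 else
  μ + 2 * (r - (k - 3) : ℕ)

theorem ht_E : Ht (VE q) (mE μ r) (q + 2) 2 0 (q + 3) :=
  ⟨rfl, fun k h => by rw [VE, if_neg (by omega), if_neg (by omega), if_neg (by omega)], fun k h _ => by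
    rw [if_neg (by omega)]; unfold mE; split_ifs <;> first | contradiction | omega⟩

theorem pr_E (a : ℕ → ℤ) : ∑ k ∈ Ioc 0 (q + 2), lb (VE q (k - 1)) (VE q k) (a (k - 1)) (a k) (cl 0 1 (k - 1))
    (cl 0 1 k) = (a 0 - a 1 - a 2 : ℤ) := by
  rw [sum_eq_add 1 2 (by omega) (fun k hk e => ?_) (fun k => (k (mem_Ioc.2 (by omega))).elim)
    fun k => (k (mem_Ioc.2 (by omega))).elim]
  · simp [VE, cl, lb, dt, rho]; ring
  · rw [mem_Ioc] at hk
    rw [cl, cl, if_neg (by omega), if_neg (by omega)]; simp [lb]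

theorem rs_E {w : Shp Γ} (tq : Tq w n κ u (VE q) (mE μ r) (q + 2)) (ok : w.OK) (fz : Finset Bs) (h1 : 1 ≤ q)
    (gap : ∀ k, u k + 8 ≤ u (k + 1)) (u0 : u 0 = x) (uN : u (q + 2 + 1) = y + 1) :
    Fm.RS ⟨pw w κ u (VE q) (q + 2), fz, ∅⟩ (pn u (mE μ r) (q + 2) n) (x + 1) (y - 1)
      (.sA (x + 2) (u 2 + 1)) (.sA (u 1 + 2) (u (q + 2) + 1)) := by
  have g0 : u 0 + 8 ≤ u 1 := gap 0
  have g1 := gap (q + 2)
  have g2 : u 1 + 8 ≤ u (1 + 1) := gap 1
  have g3 := tq.mono.monotone (show 2 ≤ q + 2 by omega)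
  have g4 : u (0 + 1) = u 1 := rfl
  have ht := ht_E (q := q) (μ := μ) (r := r)
  refine tq.rs (by omega) (by omega) (by omega) (by omega) ok fz rfl
    (fun k : Fin q => if k.1 = 0 then cl 0 1 else cl 2 (k + 2)) ⟨0, h1⟩ (fun k => ?_) (fun a b => ?_)
    (fun a => ?_) (k0 := 0) (k1 := 2) (k0' := 1) (k1' := q + 2) (b := 0) (b' := -1) (by omega) (by omega)
    (by omega) (by omega) (by omega) (by omega) (by omega) (by omega) (fun k a b => ?_) (fun k a b => ?_) (by decide)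
  · split_ifs <;> exact ⟨rfl, if_neg (by omega)⟩
  · by_cases e : b.1 = 0
    · simp only [if_pos e, pr_E, Fin.ext_iff]
      split_ifs <;> first | omega | simp [cl]
    · simp only [if_neg e, Fin.ext_iff]
      rw [ht.pr _ (by omega) (by omega)]
      split_ifs <;> simp only [cl] <;> split_ifs <;> first | omega | simp
  · by_cases e : a.1 = 0
    · simp only [if_pos e, pr_E, Fin.ext_iff]
      simp [mE]
    · simp only [if_neg e, Fin.ext_iff]
      rw [ht.pr _ (by omega) (by omega), show mE μ r 2 = 1 from rfl]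
      have := ht.h (a + 2) (by omega) (by omega)
      rw [if_neg (by omega)] at this
      rcases this with e | e <;> rw [e] <;> norm_num
  · rw [if_pos rfl, cl, if_neg (by omega)]; simp
  · rcases (show k = 0 ∨ k = 1 ∨ k = q + 2 by omega) with rfl | rfl | rfl
    · simp [cl, Wd38.dt_self]
    · simp [cl, VE, dt]
    · rw [tq.vN, if_pos rfl, cl, if_neg (by omega)]; simp [Wd38.dt_self]

/-- **the entry turn** -/
theorem St.ent (H : Ax0 P T) (h : St P T κ X (1, 1) μ 5 F n x y 5 K g d c) (h2 : 2 ≤ q)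
    (gap : ∀ k, u k + 8 ≤ u (k + 1)) (u0 : u 0 = x) (uN : u (q + 2 + 1) = y + 1) :
    ∃ μ F n Q c, St P T κ X (q, 1) μ 5 F n (u 3 + 1) (u 4 - 2) Q K g (d + 1) c := by
  obtain ⟨r, hr⟩ : ∃ r : ℕ, q - 1 ≤ 4 * r ∧ 4 * r ≤ q + 2 := ⟨(q + 2) / 4, by omega⟩
  have ht := ht_E (q := q) (μ := μ) (r := r)
  have mono : StrictMono u := strictMono_nat_of_lt_succ fun k => by have := gap k; omega
  have g0 : u 0 + 8 ≤ u 1 := gap 0
  have g1 : u 1 + 8 ≤ u 2 := gap 1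
  have g2 : u 2 + 8 ≤ u 3 := gap 2
  have g3 : u 3 + 8 ≤ u 4 := gap 3
  have g4 := mono.monotone (show 4 ≤ q + 2 by omega)
  have g5 := gap (q + 2)
  have g6 : u (0 + 1) = u 1 ∧ u (1 + 1) = u 2 ∧ u (2 + 1) = u 3 ∧ u (3 + 1) = u 4 := ⟨rfl, rfl, rfl, rfl⟩
  have mN : mE μ r (q + 2) = μ := by
    rw [mE, if_neg (by omega), if_neg (by omega), if_neg (by omega), show r - (q + 2 - 3) = 0 by omega]; simp
  have vN : VE q (q + 2) = (1, 1) := by rw [ht.v _ (by omega)]; simp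
  have yr := cut_lt h.fr.ok h.cy
  have yz := h.fr.yb.trans h.fr.bz
  have tq : Tq F.w n κ u (VE q) (mE μ r) (q + 2) :=
    ⟨mono, u0 ▸ h.fr.lo, by omega, by omega, by rw [u0, uN, add_sub_cancel_right]; exact h.rd, fun k hk => by
      rcases k with _ | _ | _ | k
      · exact .inl (by simp [VE, dt])
      · exact .inr (by simp [VE, dt])
      · exact .inl (by simp [VE, dt])
      · rw [ht.d (by omega), ht.v (k + 1 + 1 + 1 + 1) (by omega)]; exact .inl (by simp [dt]), vN, mN⟩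
  have ag := (pw_ag (w := F.w) (κ := κ) (u := u) (V := VE q) (m := mE μ r) (N := q + 2) n).mono
    (s' := fun j => j ≤ x ∨ y ≤ j) fun j k => by omega
  have ok := tq.ok h.fr.ok.w h.fr.lok.ok
  have H1 := h.fr.tr ok.1 ok.2 (p1_pw h.fr.p1 fun k => by unfold VE; split_ifs <;> simp) rfl rfl
    (fun j k => (ag j k).1) rfl rfl
  have C1 := h.cc.tr h.fr (F' := { F with w := pw F.w κ u (VE q) (q + 2) }) (pn u (mE μ r) (q + 2)) h.fr.ls rfl rfl ag
    Subset.rfl fun _ => .inl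
  have am := h.am.tr (F' := { F with w := pw F.w κ u (VE q) (q + 2) }) h.fr.yb rfl (ag.mono fun j k => .inr k)
    Subset.rfl (fun _ => .inl) le_rfl (fun _ _ _ => by omega) fun a k => .inl (walls_mp (pn u (mE μ r) (q + 2)) a k)
  have rf := fun W a a1 a2 e e1 e2 => h.rf H (by norm_num) tq u0 (by omega) (by omega) uN H1 C1 W a a1 a2 e e1 e2
    (rs_E tq h.fr.ok.w F.fz (by omega) gap u0 uN)
  have pt := tq.pt
  have cx : Fm.Cut { F with w := pw F.w κ u (VE q) (q + 2) } x := ⟨h.cx.1, (ag x (.inl le_rfl)).1 ▸ h.cx.2⟩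
  have cy : Fm.Cut { F with w := pw F.w κ u (VE q) (q + 2) } y := ⟨h.cy.1, (ag y (.inr le_rfl)).1 ▸ h.cy.2⟩
  have fz0 : ∀ a ∈ Fm.fz { F with w := pw F.w κ u (VE q) (q + 2) }, a.lo ≤ x ∨ y ≤ a.lo := h.fz
  change Pt (Fm.w { F with w := pw F.w κ u (VE q) (q + 2) }) _ _ _ _ _ _ at pt
  clear tq ag ok
  generalize ({ F with w := pw F.w κ u (VE q) (q + 2) } : Fm Γ) = F at *
  generalize c.mp (pn u (mE μ r) (q + 2)) id ∅ = c at *
  generalize pn u (mE μ r) (q + 2) n = n at *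
  have s01 : ∀ a b, u 0 ≤ a → a < u 1 → u 1 ≤ b → b < u 2 → S F.w n lp a b = 0 ∧ S F.w n uu a b = 0 :=
    fun a b a0 a1 b0 b1 => by
      rw [pt.S vn_lp (k0 := 0) (k1 := 1) (by omega) a0 a1 b0 b1, pt.S vn_uu (k0 := 0) (k1 := 1) (by omega) a0 a1 b0 b1,
        show Ioc 0 1 = {1} from rfl, sum_singleton, sum_singleton]
      have := v_d 0 μ (μ - 1)
      exact ⟨this.1, this.2.trans (by push_cast; ring)⟩
  have s12 : ∀ a b, u 1 ≤ a → a < u 2 → u 2 ≤ b → b < u 3 →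
      S F.w n lp a b = 1 / 2 ∧ S F.w n uu a b = 2 - 2 * μ := fun a b a0 a1 b0 b1 => by
    rw [pt.S vn_lp (k0 := 1) (k1 := 2) (by omega) a0 a1 b0 b1, pt.S vn_uu (k0 := 1) (k1 := 2) (by omega) a0 a1 b0 b1,
      show Ioc 1 2 = {2} from rfl, sum_singleton, sum_singleton]
    exact ⟨(v_l 0 _ _).1, (v_l 0 (μ - 1) 0).2.trans (by push_cast; ring)⟩
  have s1k : ∀ a b k, u 1 ≤ a → a < u 2 → 2 < k → k ≤ q + 2 → u k ≤ b → b < u (k + 1) →
      S F.w n lp a b = 1 ∧ S F.w n uu a b = 2 - 2 * μ + (2 * mE μ r k - (q + 3 - k)) := fun a b k a0 a1 k0 k1 b0 b1 => by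
    have := mono.monotone k0.le
    obtain ⟨p1, p2⟩ := s12 a (u 2) a0 a1 le_rfl (by omega)
    obtain ⟨p3, p4⟩ := ht.s1 pt rfl k0 k1 le_rfl (by omega) b0 b1
    rw [S_cut a1.le (by omega), S_cut (φ := uu) a1.le (by omega), p1, p2, p3, p4, sx, if_neg (by omega)]
    exact ⟨by norm_num, by push_cast; ring⟩
  have s1N : ∀ a b, u 1 ≤ a → a < u 2 → u (q + 2) ≤ b → b ≤ y → S F.w n lp a b = 1 ∧ S F.w n uu a b = 1 :=
    fun a b a0 a1 b0 b1 => (s1k a b (q + 2) a0 a1 (by omega) le_rfl b0 (by omega)).imp_right fun e =>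
      e.trans (by rw [mN]; push_cast; ring)
  obtain ⟨l1, l2⟩ := s01 x (u 1 + 1) (by omega) (by omega) (by omega) (by omega)
  obtain ⟨r1, r2⟩ := s1N (u 1 + 1) y (by omega) (by omega) (by omega) le_rfl
  have cw := H1.cw cx cy H1.xy le_rfl
  have W : Tw1 F n X.z x y ((13 - (5 : ℤ)) / 4, 5) (vQ 5) :=
    ⟨cw, yz, by rw [S_cut (y := u 1 + 1) (by omega) (by omega), l1, r1, zero_add],
      by rw [S_cut (y := u 1 + 1) (by omega) (by omega), l2, r2, zero_add], vQ_le (by norm_num)⟩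
  have E : ∀ {t}, u 2 + 1 < t → Ar F n x t (x + 2) (u 2 + 1) := fun k => by
    obtain ⟨p1, p2⟩ := s01 (x + 2) (u 1) (by omega) (by omega) le_rfl (by omega)
    obtain ⟨p3, p4⟩ := s12 (u 1) (u 2 + 1) le_rfl (by omega) (by omega) (by omega)
    refine ⟨pt.okA (k0 := 0) (k1 := 2) (by omega) (by omega) (by omega) (by omega) (by omega) (by omega) (by omega)
      (.inr (by simp [VE, dt])), by omega, k, ?_⟩
    rw [In1, S_cut (y := u 1) (by omega) (by omega), S_cut (φ := uu) (y := u 1) (by omega) (by omega), p1, p2, p3, p4,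
      pt.vv (k0 := 0) (k1 := 2) (by omega) (by omega) (by omega) (by omega) (by omega) (by omega),
      pt.vv (k0 := 0) (k1 := 2) (by omega) (by omega) (by omega) (by omega) (by omega) (by omega)]
    change _ - lp (1, 1) (1, 0) _ _ = 0 ∧ _ - uu (1, 1) (1, 0) μ 1 = 1
    rw [(v_l _ _ _).1, (v_l _ _ 0).2]
    exact ⟨by ring, by push_cast; ring⟩
  have D : Ar F n x y (u 1 + 2) (u (q + 2) + 1) := by
    obtain ⟨p1, p2⟩ := s1N (u 1 + 2) (u (q + 2) + 1) (by omega) (by omega) (by omega) (by omega)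
    refine ⟨pt.okA (k0 := 1) (k1 := q + 2) (by omega) (by omega) (by omega) (by omega) (by omega) (by omega) (by omega)
      (by rw [vN]; exact .inr (by simp [VE, dt])), by omega, by omega, ?_⟩
    rw [In1, p1, p2, pt.vv (k0 := 1) (k1 := q + 2) (by omega) (by omega) (by omega) (by omega) (by omega) (by omega),
      pt.vv (k0 := 1) (k1 := q + 2) (by omega) (by omega) (by omega) (by omega) (by omega) (by omega), vN, mN]
    change _ - lp (0, 1) (0 + 1, 1) _ _ = 0 ∧ _ - uu (0, 1) (0 + 1, 1) (μ - 1) μ = 1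
    rw [(v_p _ _ _).1, (v_p _ _ _).2]
    exact ⟨by ring, by push_cast; ring⟩
  have oS : (Bs.sS (u 1 + 1)).OK F.w := pt.okS (k0 := 1) (by omega) (by omega) (by omega) (by simp [VE])
  have nl : ∀ {F : Fm Γ} B η t, Nq F n B η x t X.z (-((13 - (5 : ℤ)) / 4)) (-5) 0 0 0 0 (-(0 : ℤ)) :=
    fun B η t => ⟨by norm_num, .inr ⟨0, .inl rfl, by norm_num⟩⟩
  have ws : Wp F X.z n x y ((13 - (5 : ℤ)) / 4, 5) (vQ 5) {.sS (u 1 + 1)} := ⟨0, by simp, fun σ η => by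
    cases e : η (.sS (u 1 + 1))
    · exact pc_l cw oS (by omega) (by omega) e (by rw [l1, l2]; exact nl _ _ _)
    · exact pc_r cw oS (by omega) (by omega) e (by
        rw [r1, r2]; exact ⟨by norm_num [vQ], .inr ⟨1, .inr ⟨.inr yz, rr1⟩, by norm_num [vQ]⟩⟩)⟩
  have wd : Wp F X.z n x y ((13 - (5 : ℤ)) / 4, 5) (vQ 5) {.sA (u 1 + 2) (u (q + 2) + 1), .sS (u 1 + 1)} :=
    ⟨0, by simp, fun σ η => by
      cases e : η (.sA (u 1 + 2) (u (q + 2) + 1))
      · exact pc_in cw (by simpa [Bs.pin] using ⟨⟨D.ok, D.hi⟩, oS, by change u 1 + 1 < y; omega⟩) (by simp) D.lo e D.i _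
          (by simp [Bs.hi])
      cases e' : η (.sS (u 1 + 1))
      · exact pc_la cw D.ok oS (by omega) (by omega) D.hi e e' (by rw [l1, l2]; exact nl _ _ _)
      · obtain ⟨p1, p2⟩ := (⟨D.ok, by omega, D.hi, D.i⟩ : Ar F n (u 1 + 1) y _ _).out D.hi.le
        exact pc_ra cw D.ok oS (by omega) (by omega) D.hi e e' (by
          rw [p1, p2, r1, r2]; exact ⟨by norm_num [vQ], .inr ⟨0, .inl rfl, by norm_num [vQ]⟩⟩)⟩
  have fz : Fz F x y := fz_of H1.ok fz0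
  have wS : ∀ {F : Fm Γ} t, (Bs.sS (u 1 + 1)).OK F.w → u 1 + 1 < t → Wa F x t [] (Bs.sS (u 1 + 1)) :=
    fun t o k => ⟨o, by change x < u 1 + 1; omega, k, .inl rfl⟩
  have one := fun a (i : Wa _ x y [] a) => inn_one H1.ls fz (by simp) i
  have jE := C1.jo H1 (Tw1.fi1 (ts := []) W (one _ (E (by omega)).wa) trivial (W.a (E (by omega)))) trivial
  have jD := C1.jo H1 (Tw1.fi1 (ts := []) W (one _ D.wa) trivial (W.a D)) trivial
  have jS := C1.jo H1 (Tw1.fi1 (ts := []) W (one _ (wS _ oS (by omega))) trivial ws) trivial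
  have ne := rf W (E (by omega)) (by omega) (by omega) D (by omega) (by omega)
  rw [C1.split H1 H jE jS jD, J_comm _ (⟨.sA (u 1 + 2) _, []⟩ : Wl), C1.two H1 H jD jS nofun (Tw1.fi2 (ts := []) W
    (inn_two H1.ls fz (by simp) D.wa (wS _ oS (by omega)) (.inr (.inr (.inl (by change u 1 + 1 < u 1 + 2; omega)))))
    trivial trivial (W.a D) ws wd), add_zero] at ne
  have rd := pt.rd 3 (by omega)
  rw [ht.v 3 (by omega), show (q : ℤ) + 3 - (3 : ℕ) = q by simp] at rd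
  have r2' := pt.rd 2 (by omega) (u 2 + 3) (by omega) (by omega)
  have sub : F.fz ⊆ insert (.yS (u 2 + 3)) (insert (.yS (u 3 + 1)) (insert (.yS (u 4 - 2)) F.fz)) :=
    (subset_insert _ _).trans ((subset_insert _ _).trans (subset_insert _ _))
  have H' := H1.frz sub (by
    simp only [mem_insert, forall_eq_or_imp]
    exact ⟨.inr ⟨_, rfl, by omega, by omega⟩, .inr ⟨_, rfl, by omega, by omega⟩, .inr ⟨_, rfl, by omega, by omega⟩,
      fun _ => .inl⟩)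
  have C' := C1.frz H1 sub (by
    simp only [mem_insert, forall_eq_or_imp, Bs.lo, Bs.hi]
    exact ⟨.inr (by omega), .inr (by omega), .inr (by omega), fun _ => .inl⟩)
  set F' : Fm Γ := { F with fz := insert (.yS (u 2 + 3)) (insert (.yS (u 3 + 1)) (insert (.yS (u 4 - 2)) F.fz)) }
    with hF
  have cx' : F'.Cut (u 3 + 1) := ⟨by simp [hF], by rw [(rd _ (by omega) (by omega)).1]; exact one_ne_zero⟩
  have cy' : F'.Cut (u 4 - 2) := ⟨by simp [hF], by rw [(rd _ (by omega) (by omega)).1]; exact one_ne_zero⟩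
  have hg : ∀ B η, InV B η (u 2 + 3 + 1) → F'.HgW n B η x (u 3 + 1) := fun B η i =>
    ⟨_, by omega, by omega, by simp [hF], by rw [r2'.1]; rfl, by rw [r2'.2.2]; exact odd_one, i⟩
  have fz1 : ∀ a ∈ F'.fz, a.lo ≤ x ∨ a.lo = u 2 + 3 ∨ a.lo = u 3 + 1 ∨ a.lo = u 4 - 2 ∨ y ≤ a.lo := by
    simp only [hF, mem_insert, forall_eq_or_imp, Bs.lo, true_or, or_true, true_and]
    exact fun a k => (fz0 a k).imp_right fun k => .inr (.inr (.inr k))
  have fz' : Fz F' x (u 2 + 3) := fz_of H'.ok fun a k => by have := fz1 a k; omega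
  have cw' := H'.cw ⟨sub cx.1, cx.2⟩ cx' (by omega) (by omega)
  set Q' : ℤ := 3 + 2 * q - 8 * r with hQ
  obtain ⟨m1, m2⟩ := s1k (u 1 + 1) (u 3 + 1) 3 (by omega) (by omega) (by omega) (by omega) (by omega) (by omega)
  rw [show mE μ r 3 = μ + 2 * r from rfl] at m2
  have m3 : S F.w n lp x (u 3 + 1) = 1 := by rw [S_cut (y := u 1 + 1) (by omega) (by omega), l1, m1, zero_add]
  have m4 : S F.w n uu x (u 3 + 1) = 2 + 4 * r - q := by
    rw [S_cut (y := u 1 + 1) (by omega) (by omega), l2, m2]; push_cast; ring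
  have L : ∀ a : Bs, Wa F' x (u 2 + 3) [] a → a.pin →
      Wp F' X.z n x (u 3 + 1) ((13 - (5 : ℤ)) / 4, 5) ((13 - Q') / 4, 5) {a} →
      a.pin ∧ (a.lo ≤ a.hi ∧ x < a.lo ∧ a.hi < y) ∧ ∀ σ, Gd P F' n X.z x y X.b ((13 - (5 : ℤ)) / 4, 5) 5 K g σ →
        Gd P F' n X.z (u 3 + 1) y X.b ((13 - Q') / 4, 5) 5 K g (σ ∪ {↑a}) := fun a w p k =>
    ⟨p, ⟨(wf_of_ok w.ok).1.1, w.lo, w.hi.trans (by omega)⟩, fun σ h => h.left H' ((inn_one H'.ls fz' (by simp) w).mono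
      le_rfl (by omega)) (by omega) (by omega) (by simpa using ⟨p, (w.hi.trans (show u 2 + 3 < u 3 + 1 by omega)).trans_le' le_rfl |> Int.lt_add_one_iff.1⟩) fun _ e =>
        win_two (a := a) (e := a) H'.ls (by simp [e]) (fun η => pc_0 (m := 1) cw' (by simp [e]) ⟨by
          erw [m3, m4]; rw [hQ]; push_cast; linarith, .inl (hg _ _ (by simp [InV]))⟩) (fun _ _ => k) (fun _ _ => k)
          fun _ _ q => (q rfl).elim⟩
  have E' := (E (t := u 3 + 1) (by omega)).fz F'.fz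
  have C2 := C'.ofJ H' (a := Bs.sA (x + 2) (u 2 + 1)) (e := Bs.sS (u 1 + 1)) (x' := u 3 + 1) (y' := y)
    (Q' := 5) (K' := K) (g' := g) (v' := ((13 - Q') / 4, 5)) nofun (by
      simp only [mem_insert, mem_singleton, forall_eq_or_imp, forall_eq]
      refine ⟨L _ ((E (by omega)).fz _).wa trivial ⟨0, by simp, fun σ η => ?_⟩,
        L _ (wS _ oS (by omega)) trivial ⟨0, by simp, fun σ η => ?_⟩⟩
      · cases e : η (.sA (x + 2) (u 2 + 1))
        · exact pc_in cw' (by simpa [Bs.pin] using ⟨E'.ok, Int.lt_add_one_iff.1 E'.hi⟩) (mem_singleton_self _) E'.lo e E'.i _ (by simp)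
        · refine pc_o cw' E'.ok E'.lo E'.hi e ⟨?_, .inl (hg _ _ (by simp [InV, Bs.side, e]))⟩
          erw [(E'.out E'.hi.le).1, (E'.out E'.hi.le).2, m3, m4]; rw [hQ]; push_cast; linarith
      · cases e : η (.sS (u 1 + 1))
        · exact pc_l cw' oS (by omega) (by omega) e (by erw [l1, l2]; exact nl _ _ _)
        · refine pc_r cw' oS (by omega) (by omega) e ⟨?_, .inl (hg _ _ (by simp [InV, Bs.side, e]; omega))⟩
          erw [m1, m2]; rw [hQ]; push_cast; linarith) (by omega) (by omega)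
    (.inl (by simp [Bs.hi]; omega))
  obtain ⟨c1, c2, c3, c4⟩ := ht.S pt (k0 := 3) (k1 := q + 2) (x := u 4 - 2) (y := y)
    (by omega) (by omega) (by omega) (by omega) (by omega) (by omega) (by omega)
  rw [mN, show mE μ r 3 = μ + 2 * r from rfl, sx, if_neg (by omega)] at c2 c3
  have c5 : 4 * S F.w n al (u 4 - 2) y = Q' - (5 : ℤ) := by rw [S_al, c1, c2, hQ]; push_cast; ring
  have C3 := C2.right0 (Q' := Q') (y' := u 4 - 2) (H'.mono (by omega) (by omega) le_rfl) (by omega) (by omega)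
    (fun σ k => win_df (H'.cw cy' ⟨sub cy.1, cy.2⟩ (by omega) le_rfl) yz c4
      (by change _ ≤ S F.w _ _ _ _; simp only [vQ]; push_cast at *; linarith)
      (by simp only [vQ, sub_self]; erw [c3]; exact Int.cast_nonneg (by omega)) (by simp [k])) c5
  have H3 : Fr P F' n X.z (u 3 + 1) (u 4 - 2) X.b := H'.mono (by omega) (by omega) (by omega)
  have rd' := rd.mono (a' := u 3 + 1) (b' := u 4 - 2) (by omega) (by omega)
  refine ⟨_, F', n, Q', _, H3, cx', cy', fun a k => by have := fz1 a k; omega, rd', am.tr H1.yb rfl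
    (fun _ _ => ⟨rfl, rfl, rfl⟩) sub (by
      simp only [hF, mem_insert, forall_eq_or_imp, Bs.lo]
      exact ⟨.inr (by omega), .inr (by omega), .inr (by omega), fun _ => .inl⟩) (by omega) c4
      (fun a k => (walls_J k).imp_right ?_), by omega, C3, ?_⟩
  · rintro (rfl | rfl) <;> simp only [Bs.lo] <;> omega
  · rwa [← H.frz F _ _ _ sub (C1.pre.clJ H1.ls jE jS) (C3.cl H3
      (fi_ft (H3.cw cx' cy' H3.xy le_rfl) (by omega) (ft_rd rd') (vQ_le (by norm_num))))]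

/-- **ENTRY** -/
theorem enStmt : EnStmt := fun P T κ c ci q h1 H E => by
  obtain ⟨F₀, n₀, c₀, z, t, d, μ, h⟩ := E.skf0 H
  refine ⟨⟨F₀, n₀, c₀.walls.image Wl.b ∪ F₀.fz, z, t⟩, fun L => ?_⟩
  obtain ⟨F, n, c, x, S, k, l⟩ := h (|L| + 8 * (q + 3))
  have := le_abs_self L
  have := abs_nonneg L
  obtain ⟨F, s⟩ := st_of H S k (by omega)
  rcases h1.eq_or_lt with rfl | h2
  · exact ⟨_, _, _, _, _, _, _, _, s, by omega⟩
  · obtain ⟨u, hu⟩ : ∃ u : ℕ → ℤ, ∀ k, u k = x + 8 * k + if 4 ≤ k then t + 1 - x - 8 * (q + 3) else 0 :=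
      ⟨_, fun _ => rfl⟩
    obtain ⟨μ, F, n, Q, c, s⟩ := s.ent (u := u) H h2 (fun k => by rw [hu, hu]; split_ifs <;> omega)
      (by rw [hu]; split_ifs <;> omega) (by rw [hu]; split_ifs <;> omega)
    exact ⟨_, _, _, _, _, _, _, _, s, by rw [hu, hu]; split_ifs <;> omega⟩

end Crest.Agent.X212.Nm96
end
end

-- ▼ part X212/Two48/Tr1

/-!
# Row 212, `p = 1` (helper48): terminal states of the walk are terminal chains
-/

set_option autoImplicit false
noncomputable section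

namespace Crest.Agent.X212.Two48.Tr1

open Crest.Agent.X212.Rod53 Crest.Agent.X212.Wd38 Crest.Agent.X212.Nm96 Crest.Agent.X212.Tm38 Finset Cn

variable {Γ : Nm} {P : Pm Γ} {T : WTh Γ} {F F₁ : Fm Γ} {w w' : Shp Γ} {n n' n₁ : Wt} {x y z b s t : ℤ} {κ : Γ.ι}
  {σ : Finset Bs} {v v' : ℝ × ℝ} {Q : ℤ} {K K₁ d d₁ : ℕ} {g g₁ u u₁ : ℕ → ℤ} {c c₁ : Cn} {X : Fx Γ}
  {q i tL tR : ℕ}

theorem rd_dt {r : Z2} {μ : ℤ} (h : Rd w n κ r μ x y) : ∀ c, x < c → c ≤ y → dt (w.lf c) (w.rt c) = 0 :=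
  fun c p q => by
    rw [Shp.lf, Shp.rt, (h c p.le q).1, (h (c - 1) (by omega) (by omega)).1]; exact Wd38.dt_self _

/-- a window without vertices and walls -/
theorem win0 (H : Cw F x y z) (yz : y ≤ z) (h : ∀ c, x < c → c ≤ y → dt (F.w.lf c) (F.w.rt c) = 0)
    (e : wn x y σ = ∅) (le : v' ≤ v) : F.Win z 0 n σ x y v v' := win_of H.ls fun B hB _ => by
  obtain rfl : B = ∅ := subset_empty.1 (e ▸ hB)
  refine ⟨0, by simp, fun η => pd_0 (m := 0) H yz (fun c p q => .inl (h c p q)) (Nat.cast_nonneg _) ?_ ?_⟩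
  · rw [S_zero vn_al fun c p q _ _ => h c p q]; linarith [le.1]
  · rw [S_zero vn_psi fun c p q _ _ => h c p q]; linarith [le.2]

theorem S_om (h : Df w x y) : S w n om x y = S w n al x y := sum_congr rfl fun c hc => by
  have k := (mem_filter.1 hc).2
  have : lp (w.lf c) (w.rt c) (n.nr (c - 1)) (n.nl c) = 0 := by
    rw [Nm96.lp]; split_ifs with e
    · rfl
    · rw [Int.sign_eq_neg_one_of_neg ((h c k.1 k.2).resolve_left e)]; norm_num
  simp only [Nm96.vx, om, al, this, mul_zero]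

theorem cnt_cut (h : x ≤ y) : cnt g K x = #{i ∈ range K | x < g i ∧ g i ≤ y} + cnt g K y := by
  simp only [cnt, card_filter, ← sum_add_distrib]
  exact sum_congr rfl fun i _ => by split_ifs <;> omega

section head
variable (A : Tr P T κ X q i tL tR Q F₁ n₁ u₁ K₁ g₁ d₁ c₁)
include A

theorem sb : u₁ (q + 2) + 8 < X.b := by
  have := A.gap (q + 2); have := A.hi; have := A.i1
  have := A.pt.mono.monotone (show q + 2 + 1 ≤ q + i + 2 by omega)
  omega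

theorem hs : u₁ 1 + 8 ≤ u₁ 2 ∧ u₁ 2 + 8 ≤ u₁ 3 ∧ u₁ 3 ≤ u₁ (q + 2) ∧ F₁.w.l < u₁ 1 ∧ X.b < F₁.w.r :=
  ⟨A.gap 1, A.gap 2, A.pt.mono.monotone (by have := A.i1; omega), A.pt.lo.trans (A.pt.lt 0),
    (cut_lt A.st.fr.ok A.st.am.cb).2⟩

theorem S1 : S F₁.w n₁ al (u₁ 1 + 4) (u₁ 2 + 1) =
    al (VT q i 1) (VT q i 2) (mu q i tL tR 1) (mu q i tL tR 2) := by
  have := hs A
  rw [A.pt.S (k0 := 1) (k1 := 2) vn_al (by omega) (by omega) (by simp only [Nat.reduceAdd]; omega) (by omega)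
    (by simp only [Nat.reduceAdd]; omega), show Ioc 1 2 = {2} from rfl, sum_singleton]

theorem S2 : ∃ U : ℤ, S F₁.w n₁ al (u₁ 2 + 1) (u₁ (q + 2) + 4) = U / 2 := by
  have := hs A; have := A.i1; have := A.gap (q + 2)
  obtain ⟨a1, a2, -⟩ := (ht_mu A.i1.2.2.1 A.i1.2.2.2).S (k0 := 2) (k1 := q + 2) (x := u₁ 2 + 1)
    (y := u₁ (q + 2) + 4) A.pt (by omega) (by omega) (by omega) (by omega) (by simp only [Nat.reduceAdd]; omega)
    (by omega) (by omega)
  exact ⟨_, by rw [S_al, a1, a2, mul_zero, zero_add]⟩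

end head

open Classical in
/-- the reference data -/
def rf (X : Fx Γ) (q : ℕ) (F : Fm Γ) (n : Wt) (u : ℕ → ℤ) (C : ℤ) : Ref Γ :=
  ⟨F.w, n, {a ∈ X.A | a.OK F.w ∧ X.b < a.lo}, u 1 + 4, u 2 + 1, u (q + 2) + 4, X.b, C, (0, 2), vT 0⟩

theorem rf_ok (A : Tr P T κ X q i tL tR Q F n u K g d c) (C : ℤ) : (rf X q F n u C).OK P := by
  classical
  have := hs A; have := sb A; have := A.i1; have := A.gap (q + 2)
  have pt := A.pt
  have := pt.lt 0
  have := pt.mono.monotone (show 3 ≤ q + i + 2 + 1 by omega)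
  refine ⟨A.st.fr.ok.w, A.st.fr.lok.ok, A.st.fr.lok.mL, A.st.fr.lok.mR,
    pt.rg (by simp only [rf, zero_add] at *; omega) (by simp only [rf]; omega) (by simp only [rf]; omega),
    ⟨by simp only [rf]; omega, by simp only [rf]; omega, by simp only [rf]; omega, by simp only [rf]; omega⟩,
    ⟨congrArg (·.r.2.2) (pt.s (k := 1) (j := u 1 + 4) (by omega) (by omega) (by simp only [Nat.reduceAdd]; omega)),
      ?_⟩, congrArg (|·.r.2.2|) (pt.s (k := 2) (j := u 2 + 1) (by omega) (by omega)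
        (by simp only [Nat.reduceAdd]; omega)), ?_,
    ⟨_, pt.s (k := q + 2) (j := u (q + 2) + 4 + 1) (by omega) (by omega) (by omega)⟩, A.st.am.cb.2,
    fun a k => (mem_filter.1 k).2⟩
  · show Odd (n.nr (u 1 + 4))
    rw [pt.nr (k := 1) (by omega) (by omega) (by simp only [Nat.reduceAdd]; omega), mu, if_neg (by omega), if_pos rfl]
    exact odd_one
  · show (F.w.s (u (q + 2) + 4)).r.2.1 = 0
    rw [pt.s (k := q + 2) (by omega) (by omega) (by omega), VT, if_neg (by omega), if_neg (by omega)]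
    show (q : ℤ) + 2 - (q + 2 : ℕ) = 0
    omega

theorem cpy (A : Tr P T κ X q i tL tR Q F₁ n₁ u₁ K₁ g₁ d₁ c₁) (B : Tr P T κ X q i tL tR Q F n u K g d c)
    (O₁ : Off q u₁) (O : Off q u) : Cpy F₁.w F.w n₁ n (u 1 - u₁ 1) (u₁ 1 + 4) (u₁ (q + 2) + 4) := fun j j1 j2 => by
  have h := A.pt
  have := h.lt 0; have := A.gap (q + 2); have := B.gap (q + 2); have := A.i1
  have i1 := ix_le h.mono (show u₁ 0 ≤ j by simp only [zero_add] at *; omega)
  have i2 := lt_ix h.mono j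
  have i3 : 1 < ix u₁ j + 1 := h.mono.lt_iff_lt.1 (by omega)
  have i4 : ix u₁ j < q + 2 + 1 := h.mono.lt_iff_lt.1 (by omega)
  generalize ix u₁ j = k at *
  have e1 := O k (by omega) (by omega)
  have e2 := O₁ k (by omega) (by omega)
  obtain ⟨a1, a2, a3⟩ := h.rd k (by omega) j i1 (by omega)
  obtain ⟨b1, b2, b3⟩ := B.pt.rd k (by omega) (j + (u 1 - u₁ 1)) (by omega) (by
    by_cases e : k = q + 2
    · subst e; omega
    · have := O (k + 1) (by omega) (by omega); have := O₁ (k + 1) (by omega) (by omega); omega)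
  exact ⟨b1.trans a1.symm, b2.trans a2.symm, fun _ => b3.trans a3.symm⟩

/-- growth at level zero -/
theorem ns0 {Y : Ref Γ} {D : TD} (ls : F.ls = ∅) (hx : Y.h + D.d = x) (hb : Y.b + D.e = b) (hu : Y.u.2 = 2)
    (ht : ∀ i, D.t (i + 1) = g i) (xy : x ≤ y) (yb : y ≤ b)
    (d0 : ∀ c, x < c → c ≤ y → dt (F.w.lf c) (F.w.rt c) = 0) (df : Df F.w y b) (hq : -2 ≤ Q ∧ Q ≤ 5)
    (hg : ∀ i < K, y < g i ∧ g i ≤ b) (sl : ∀ a ∈ wn x b σ, ¬a.arc ∧ y < a.lo) (M : Md F.w n σ y b Q K g) :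
    D.Ns0 Y K F n σ := by
  have df' : Df F.w x b := Df.trans (fun c p q => .inl (d0 c p q)) df
  have e0 : wn x y σ = ∅ := eq_empty_of_forall_notMem fun a k => by
    have k := mem_wn.1 k; have := sl a (mem_wn.2 ⟨k.1, k.2.1, by omega⟩); omega
  have p0 : pot F.w n σ b x = Q - 5 := by
    rw [pot_cut xy yb, e0, S_zero vn_al fun c p q _ _ => d0 c p q, M.p]; simp
  have k0 : #(wn x b σ) = K := by rw [wn_cut xy yb, e0, M.k]; simp
  have q1 : (-2 : ℝ) ≤ Q := by exact_mod_cast hq.1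
  have q2 : (Q : ℝ) ≤ 5 := by exact_mod_cast hq.2
  have key : ∀ s, x ≤ s → s ≤ b → s = x ∨ s = b ∨ .sS s ∈ σ →
      -7 ≤ pot F.w n σ b s ∧ pot F.w n σ b s ≤ 5 ∧ #(wn s b σ) = cnt g K s := fun s s1 s2 k => by
    rcases k with rfl | rfl | k
    · rw [p0, k0, cnt, filter_true_of_mem fun i k => xy.trans_lt (hg i (mem_range.1 k)).1, card_range]
      exact ⟨by linarith, by linarith, rfl⟩
    · have : wn s s σ = ∅ := eq_empty_of_forall_notMem fun a k => by have := mem_wn.1 k; omega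
      rw [pot, S_self, this, cnt, filter_false_of_mem fun i k => (hg i (mem_range.1 k)).2.not_gt]
      norm_num
    · refine M.s s ?_ s2 k
      rcases s2.eq_or_lt with e | e
      exacts [e ▸ yb, (sl _ (mem_wn.2 ⟨k, s1, e⟩)).2.le]
  refine ⟨ls, ?_, ?_, ?_, fun s t st hs s1 ht' t1 => ?_⟩ <;> simp only [TD.Φ, hx, hb, hu, ht] at *
  · exact fun a k => ⟨(sl a k).1, xy.trans_lt (sl a k).2⟩
  · exact df'
  · rw [pot, k0] at p0
    rw [S_om df', k0]
    linarith [K.cast_nonneg (α := ℝ)]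
  · obtain ⟨-, a2, a3⟩ := key s s1 (by omega) (hs.imp_right .inr)
    obtain ⟨b1, -, b3⟩ := key t (by omega) t1 (.inr ht')
    have e := wn_cut (σ := σ) st.le t1
    rw [a3, b3, cnt_cut st.le, add_left_inj] at e
    rw [pot_cut st.le t1] at a2
    rw [S_cut s1 st.le, wn_cut s1 st.le, S_om (x := s) (df'.mono s1 t1), e]
    push_cast
    linarith [(#(wn s t σ)).cast_nonneg (α := ℝ)]

theorem td_ok (A : Tr P T κ X q i tL tR Q F₁ n₁ u₁ K₁ g₁ d₁ c₁) (B : Tr P T κ X q i tL tR Q F n u K g d c)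
    (O₁ : Off q u₁) (O : Off q u) {U C : ℤ} (hU : S F₁.w n₁ al (u₁ 2 + 1) (u₁ (q + 2) + 4) = U / 2)
    (h1 : Q - 6 - 2 * U < 4 * C) (h2 : 4 * C < Q - 1 - 2 * U) :
    TD.OK P (rf X q F₁ n₁ u₁ C) K F ⟨u 1 - u₁ 1, 0, n, gs (u 2 + 1) g⟩ c := by
  classical
  have hA := hs A; have hB := hs B; have := sb A; have := sb B; have := A.i1
  have H := B.st.fr
  have M := B.st.am
  have ea : (rf X q F₁ n₁ u₁ C).a + (u 1 - u₁ 1) = u 1 + 4 := by simp only [rf]; omega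
  have eh : (rf X q F₁ n₁ u₁ C).h + (u 1 - u₁ 1) = u 2 + 1 := by
    have := O 2 (by omega) (by omega); have := O₁ 2 (by omega) (by omega); simp only [rf]; omega
  have es : (rf X q F₁ n₁ u₁ C).s + (u 1 - u₁ 1) = u (q + 2) + 4 := by
    have := O (q + 2) (by omega) le_rfl; have := O₁ (q + 2) (by omega) le_rfl; simp only [rf]; omega
  have eb : (rf X q F₁ n₁ u₁ C).b + 0 = X.b := add_zero _
  have aq := A.st.am.aq.symm.trans M.aq
  have er : F.w.r = F₁.w.r := M.r.trans A.st.am.r.symm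
  have wl : ∀ a ∈ c.walls, a.b.pin ∧ a.b.OK F.w ∧ Ps (u 2 + 1) (u 3 - 2) X.b a := fun a k => by
    obtain ⟨p, hp, k⟩ := mem_walls.1 k
    exact (B.st.cc.cell p hp).2.ok a k
  have sd : ∀ a ∈ c.walls, a.b.lo ≤ a.b.hi ∧ (a.b.hi < u 1 + 4 ∨ u 2 + 1 < a.b.lo) := fun a k => by
    refine ⟨(wf_of_ok (wl a k).2.1).1.1, ?_⟩
    rcases B.side _ (mem_union_left _ (mem_image_of_mem _ k)) with e | e | e
    · exact ((e ▸ (wl a k).1 :) : False).elim
    · exact ((e ▸ (wl a k).1 :) : False).elim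
    · exact e
  have d0 := rd_dt B.st.rd
  have cw := H.cw B.st.cx B.st.cy H.xy le_rfl
  refine ⟨H.ok, H.lok, ⟨ea ▸ B.fa, eh ▸ B.st.cx.1, eb ▸ M.cb.1⟩, by rw [es, eb]; omega, er.trans (add_zero _).symm,
    cpy A B O₁ O, fun j a _ => ?_, fun a k => ?_, ea ▸ eh ▸ B.side, fun a k p => ?_, by simp [H.ls],
    fun p hp => (B.st.cc.cell p hp).1 ▸ .refl, ?_, .inl (es ▸ B.s), eh.symm, ?_, fun j hj => ⟨?_, (M.g1 j hj).2.2⟩,
    fun p hp => ?_⟩
  · obtain ⟨a1, a2, a3⟩ := aq j a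
    simpa only [add_zero] using ⟨a1, a2, fun _ => a3⟩
  · rw [eh, eb]
    rcases (wl a k).2.2 with p | p | p
    exacts [.inl p.1, .inr ⟨by omega, p.2.1.le, fun τ j => by have := p.2.2.2 τ j; omega⟩, .inl p.1]
  · rw [eb] at p
    rw [show a.sh (-0) = a by cases a <;> simp [Bs.sh]]
    have o : a ∈ X.A ∧ a.OK F.w := by
      rcases mem_union.1 k with k | k
      · obtain ⟨f, j, rfl⟩ := mem_image.1 k
        exact ⟨M.twc f j p, (wl f j).2.1⟩
      · exact ⟨M.twf a k p, (H.ok.fz a k).1⟩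
    exact mem_filter.2 ⟨o.1, ok_loc o.2 (by omega) er.le fun j a _ => (aq j (by simp only; omega)).1.symm, p⟩
  · rw [ea]
    exact B.st.cc.exc.congr (y := u 1 + 4) fun p hp a k => by have := sd a (mem_walls.2 ⟨p, hp, k⟩); omega
  · rw [eb]
    cases K with
    | zero => show u 2 + 1 ≤ _; omega
    | succ k => exact (M.g1 k k.lt_succ_self).2.1
  · cases j with
    | zero => have := (M.g1 0 hj).1; show u 2 + 1 < g 0; omega
    | succ j => exact M.g2 j hj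
  obtain ⟨e, G⟩ := B.st.cc.cell p hp
  obtain ⟨ts, k1, k2, k3, k4, k5⟩ := G.wr
  have ps := fun a => G.pos H.yb (a := a)
  have bz := H.bz
  have zr := cut_lt H.ok H.cz
  have e1 : Aq F.w F.w n (acts F.w ts n) (· ≤ u 3 - 2) := acts_ag _ fun τ q j i => .inl (by have := k1 τ q; omega)
  have e0 : wn (u 2 + 1) (u 3 - 2) (p.2.image Wl.b) = ∅ := eq_empty_of_forall_notMem fun a k => by
    have k := mem_wn.1 k; have := ps _ k.1; omega
  have W : ∀ v, vQ Q ≤ v → F.Win X.z 0 (acts F.w ts n) (p.2.image Wl.b) (u 2 + 1) (F.w.r + 1) v (vR P) := fun v le =>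
    (win0 cw (by omega) d0 e0 le).trans k4 (by omega) (by omega) (by omega) (by omega)
      (fun a k => by have k := mem_wn.1 k; have := ps _ k.1; exact ⟨by omega, by omega⟩) (by simp [H.ls, wn])
  have ok := forall_mem_image.2 fun a k => (G.ok a k).2.1
  have hd : ∀ x, F₁.w.l ≤ x → (rf X q F₁ n₁ u₁ C).hd al x = S F₁.w n₁ al x (u₁ (q + 2) + 4) := fun x k =>
    (S_eq (w := F₁.w) (y := u₁ (q + 2) + 4) k (by omega)).symm
  have c1 : (Q : ℝ) - 6 - 2 * U < 4 * C := by exact_mod_cast h1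
  have c2 : (4 * C : ℝ) < Q - 1 - 2 * U := by exact_mod_cast h2
  rw [e]
  refine ⟨ts, k2, k3, fun τ q => by rw [eh, eb]; have := k1 τ q; omega,
    ⟨forall_mem_image.2 fun a k => ⟨(G.ok a k).2.1, okn_of_pin (G.ok a k).1⟩, G.far, forall_mem_image.2 G.fz,
      by simp [H.ls], ?_⟩, ?_, ⟨X.z, vQ Q, H.cz, eh ▸ W _ le_rfl, ?_⟩, .inr ?_, X.z, H.cz, eb ▸ bz, ?_⟩
  · obtain ⟨v, Wl⟩ := G.wl
    exact ((Wl.aq H.ls H.ls rfl rfl e1 (fun _ _ q => by omega) Subset.rfl (fun _ _ _ => Iff.rfl)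
      fun a k _ q => by have := ps a k; omega).trans (W _ ⟨by simp only [vQ]; linarith, by simp only [vQ]; norm_num⟩)
      (by omega) (by omega) (by omega) (by omega) (fun a k => by
        have := ps _ (mem_wn.1 k).1; exact ⟨by omega, by omega⟩) (by simp [H.ls, wn])).numC le_rfl zero_le_one ok
      G.far (by simp [H.ls]) (.inr H.cz) zr.2.le le_rfl le_rfl
  · obtain ⟨v, v', Wl, k⟩ := B.nl p hp
    refine ⟨X.z, v, v', ea ▸ Wl.aq H.ls H.ls rfl rfl e1 (fun _ _ q => by omega) Subset.rfl (fun _ _ _ => Iff.rfl)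
      fun a k _ q => ?_, ?_⟩
    · obtain ⟨a, j, rfl⟩ := mem_image.1 k
      have := sd a (mem_walls.2 ⟨p, hp, j⟩); omega
    · show 7 / 4 - (C : ℝ) - Ref.hd _ al (u₁ 1 + 4) < _
      rw [hd _ (by omega), S_cut (y := u₁ 2 + 1) (by omega) (by omega), hU, S1 A, ← S1 B]
      linarith
  · show (9 - (Q : ℝ)) / 4 < 2 - (C : ℝ) - Ref.hd _ al (u₁ 2 + 1)
    rw [hd _ (by omega), hU]
    linarith
  · refine ns0 H.ls eh eb rfl (fun _ => rfl) H.xy.le H.yb d0 M.df B.st.q (fun j k => ⟨(M.g1 j k).1, (M.g1 j k).2.1⟩)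
      (fun a k => ?_) k5
    obtain ⟨k, a1, a2⟩ := mem_wn.1 k
    have := ps a k
    obtain ⟨a, j, rfl⟩ := mem_image.1 k
    rcases (G.ok a j).2.2 with p | p | p
    exacts [by omega, ⟨p.2.2.1, p.1⟩, by omega]
  · rw [eb]
    exact G.tl.aq (p := (X.b ≤ ·)) H.ls H.ls rfl rfl (acts_ag _ fun τ q j i => .inr (by have := k1 τ q; omega))
      (fun _ q _ => q) Subset.rfl (fun _ _ _ => Iff.rfl) fun a k _ _ => by have := ps a k; omega

/-- **TERMINAL** for `p = 1` -/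
theorem trStmt : TrStmt := fun P T κ X q i tL tR Q Fw => by
  by_cases h : ∃ F n u K g d c, Off q u ∧ Tr P T κ X q i tL tR Q F n u K g d c
  swap
  · exact ⟨0, fun F n u K g d c _ O B => h ⟨F, n, u, K, g, d, c, O, B⟩⟩
  obtain ⟨F₁, n₁, u₁, K₁, g₁, d₁, c₁, O₁, A⟩ := h
  obtain ⟨U, hU⟩ := S2 A
  obtain ⟨N, hN⟩ := Fw _ (rf_ok A ((Q - 2 * U - 2) / 4))
  refine ⟨N, fun F n u K g d c le O B => B.st.ne (hN K le F d c _ (td_ok A B O₁ O hU (by omega) (by omega))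
    (B.st.cc.cl B.st.fr ⟨[], inn_empty, by simp, fun σ e => ?_⟩))⟩
  have H := B.st.fr
  exact win0 (H.cw B.st.cx B.st.cy H.xy le_rfl) (H.yb.trans H.bz) (rd_dt B.st.rd) (by simpa using e)
    ⟨by simp only [vQ]; linarith, by simp only [vQ]; norm_num⟩

end Crest.Agent.X212.Two48.Tr1
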